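import Mathlib

/-!
# P159: the XY model in free boxes

The problem's definitions: `expect R b` is the expectation in the box `[-R, R]^2` with free
boundary, every nearest neighbour pair counted once; `C`, `mass` and `bc` are the limits `C_b(r)`,
`m(b)` and the threshold `b_c`.
-/

namespace Vale.Agent.P159

open MeasureTheory Filter

noncomputable section

/-- An angle. -/
abbrev Ang := AddCircle (2 * Real.pi)

noncomputable instance : Fact (0 < 2 * Real.pi) := ⟨by positivity⟩

/-- The cosine of an angle. -/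
def cs (x : Ang) : ℝ := Real.Angle.cos x

/-- The uniform law `dθ/2π` of every angle. -/
def law (V : Type*) [Fintype V] : Measure (V → Ang) :=
  Measure.pi fun _ => AddCircle.haarAddCircle

/-- The square lattice. -/
abbrev Site := ℤ × ℤ

/-- The box `[-R, R]^2`. -/
def boxSet (R : ℕ) : Finset Site :=
  Finset.Icc (-(R : ℤ)) R ×ˢ Finset.Icc (-(R : ℤ)) R

/-- The vertices of the box. -/
abbrev Box (R : ℕ) := ↥(boxSet R)

/-- The sum of `cos (θ_x - θ_y)` over the nearest neighbour pairs of the box, each counted once. -/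
def boxEnergy (R : ℕ) (θ : Box R → Ang) : ℝ :=
  ∑ x : Box R, ∑ y : Box R,
    if (y : Site) = (x : Site) + (1, 0) ∨ (y : Site) = (x : Site) + (0, 1) then cs (θ x - θ y) else 0

/-- The expectation in the box at inverse temperature `b`. -/
def expect (R : ℕ) (b : ℝ) (f : (Box R → Ang) → ℝ) : ℝ :=
  (∫ θ, Real.exp (b * boxEnergy R θ) * f θ ∂law (Box R)) /
    ∫ θ, Real.exp (b * boxEnergy R θ) ∂law (Box R)

/-- The correlation of two sites in the box (zero if one of them is outside). -/
def corrBox (R : ℕ) (b : ℝ) (x y : Site) : ℝ :=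
  if h : x ∈ boxSet R ∧ y ∈ boxSet R then
    expect R b fun θ => cs (θ ⟨x, h.1⟩ - θ ⟨y, h.2⟩) else 0

/-- `C_b(r)`, the limit `R → ∞` of the correlation of `0` and `r e₁`. -/
def C (b : ℝ) (r : ℕ) : ℝ := limUnder atTop fun R : ℕ => corrBox R b 0 ((r : ℤ), 0)

/-- `m(b)`, the limit `r → ∞` of `-log C_b(r) / r`. -/
def mass (b : ℝ) : ℝ := limUnder atTop fun r : ℕ => -Real.log (C b r) / r

/-- The threshold `b_c = inf {b > 0 : m(b) = 0}`. -/
def bc : ℝ := sInf {b : ℝ | 0 < b ∧ mass b = 0}

end

end Vale.Agent.P159
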