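import Vale.Agent.P159.Rep

/-!
# P159: correlation inequalities of the XY model on a finite graph

Monotonicity in the couplings (Ginibre), supermultiplicativity, the exit inequality with the first
factor computed inside (Lieb) and the bound on truncated pair correlations.
-/

namespace Vale.Agent.P159

open MeasureTheory Filter
open scoped Classical Topology

noncomputable section

variable {V : Type*} [Fintype V] {ι : Type*} [Fintype ι] (en : ι → V × V)

/-- The two point function. -/
def G (J : ι → ℝ) (a x : V) : ℝ := Z en J (dl a - dl x) / Z en J 0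

variable {J : ι → ℝ}

lemma Z_neg (J : ι → ℝ) (φ : V → ℤ) : Z en J (-φ) = Z en J φ := by
  simp [Z, dot_neg, cs_neg]

lemma Z_pos (J : ι → ℝ) : 0 < Z en J 0 := by
  simp only [Z, dot_zero, cs_zero, mul_one]
  exact integral_exp_pos (integrable_of_continuous (by fun_prop))

omit [Fintype ι] in
lemma cut_true (J : ι → ℝ) : cut (fun _ : ι => True) J = J := by funext i; simp [cut]

omit [Fintype V] [Fintype ι] in
lemma K_true (l : List ι) (P Q : V → ℤ) :
    K (outL (fun _ : ι => True) en l) (insL (fun _ : ι => True) en l) P Q =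
      O (l.map en) P * O (l.map en) Q := by
  simp [outL, insL, K]

/-- Signed combinations of products of two replicas are nonnegative if they are so list by list. -/
theorem combination_nonneg (S : ι → Prop) (hJ : ∀ i, 0 ≤ J i) {κ : Type*} (t : Finset κ)
    (c : κ → ℝ) (A B : κ → V → ℤ)
    (h : ∀ l : List ι, 0 ≤ ∑ j ∈ t, c j * K (outL S en l) (insL S en l) (A j + B j) (A j - B j)) :
    0 ≤ ∑ j ∈ t, c j * (Z en J (A j) * Z en (cut S J) (B j)) := by
  refine ge_of_tendsto' (tendsto_finsetSum t fun j _ =>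
    (tendsto_part S en J (A j) (B j)).const_mul (c j)) fun n => ?_
  simp only [part, Finset.mul_sum]
  rw [Finset.sum_comm]
  refine Finset.sum_nonneg fun k _ => ?_
  simp only [← mul_div_assoc, ← Finset.sum_div, Finset.mul_sum]
  refine div_nonneg ?_ (Nat.cast_nonneg _)
  rw [Finset.sum_comm]
  refine div_nonneg (Finset.sum_nonneg fun l _ => ?_) (pow_nonneg zero_le_two k)
  have hp : (0 : ℝ) ≤ ∏ j, J (l j) := Finset.prod_nonneg fun j _ => hJ (l j)
  refine le_of_le_of_eq (mul_nonneg hp (h (List.ofFn l))) ?_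
  rw [Finset.mul_sum]
  exact Finset.sum_congr rfl fun j _ => by ring

/-- Supermultiplicativity. -/
theorem G_mul_le (hJ : ∀ i, 0 ≤ J i) (a u x : V) : G en J a u * G en J u x ≤ G en J a x := by
  have h := combination_nonneg en (fun _ => True) hJ (Finset.univ : Finset Bool)
    (fun j => if j then 1 else -1) (fun j => if j then dl a - dl x else dl a - dl u)
    (fun j => if j then 0 else dl u - dl x) fun l => ?_
  · simp only [Fintype.sum_bool, if_true, Bool.false_eq_true, if_false, cut_true] at h
    have h0 := Z_pos en J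
    unfold G
    rw [div_mul_div_comm, div_le_div_iff₀ (mul_pos h0 h0) h0]
    nlinarith
  · simp only [Fintype.sum_bool, if_true, Bool.false_eq_true, if_false, K_true, add_zero, sub_zero,
      sub_add_sub_cancel]
    rw [show dl a - dl u - (dl u - dl x) = dl a - 2 • dl u + dl x by abel]
    nlinarith [O_double_le (l.map en) a x u, O_nonneg (l.map en) (dl a - dl x)]

/-- The truncated correlation of a pair with an edge, times the squared partition function. -/
def tru (J : ι → ℝ) (φ d : V → ℤ) : ℝ :=
  (Z en J (φ + d) + Z en J (φ - d)) / 2 * Z en J 0 - Z en J φ * Z en J d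

/-- Truncated pair correlations are nonnegative. -/
theorem tru_nonneg (hJ : ∀ i, 0 ≤ J i) (φ d : V → ℤ) : 0 ≤ tru en J φ d := by
  have h := combination_nonneg en (fun _ => True) hJ (Finset.univ : Finset (Fin 3))
    ![1 / 2, 1 / 2, -1] ![φ + d, φ - d, φ] ![0, 0, d] fun l => ?_
  · simp [Fin.sum_univ_three, cut_true] at h
    simp only [tru]
    linarith
  · simp [Fin.sum_univ_three, K_true]
    nlinarith [sq_nonneg (O (l.map en) (φ + d) - O (l.map en) (φ - d))]

/-- The bound on truncated pair correlations. -/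
theorem tru_le (hJ : ∀ i, 0 ≤ J i) (a x u v : V) :
    tru en J (dl a - dl x) (dl u - dl v) ≤ (Z en J (dl a - dl u) * Z en J (dl v - dl x) +
      Z en J (dl a - dl v) * Z en J (dl u - dl x)) / 2 := by
  set φ := dl a - dl x with hφ
  set d := dl u - dl v with hd
  have h := combination_nonneg en (fun _ => True) hJ (Finset.univ : Finset (Fin 5))
    ![-(1 / 2), -(1 / 2), 1, 1 / 2, 1 / 2] ![φ + d, φ - d, φ, dl a - dl u, dl a - dl v]
    ![0, 0, d, dl v - dl x, dl u - dl x] fun l => ?_
  · simp [Fin.sum_univ_five, cut_true] at h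
    simp only [tru]
    linarith
  · simp [Fin.sum_univ_five, K_true]
    rw [show dl a - dl u + (dl v - dl x) = φ - d by rw [hφ, hd]; abel,
      show dl a - dl u - (dl v - dl x) = dl a + dl x - dl u - dl v by abel,
      show dl a - dl v + (dl u - dl x) = φ + d by rw [hφ, hd]; abel,
      show dl a - dl v - (dl u - dl x) = dl a + dl x - dl u - dl v by abel]
    have hD := O_diff_le (l.map en) a x u v
    rw [show dl a + dl u - dl v - dl x = φ + d by rw [hφ, hd]; abel,
      show dl a + dl v - dl u - dl x = φ - d by rw [hφ, hd]; abel, abs_le] at hD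
    have hp := O_nonneg (l.map en) (φ + d)
    have hm := O_nonneg (l.map en) (φ - d)
    rcases le_total (O (l.map en) (φ - d)) (O (l.map en) (φ + d)) with hle | hle
    · nlinarith [mul_le_mul_of_nonneg_right hD.2 (sub_nonneg.2 hle),
        mul_le_mul_of_nonneg_left (show O (l.map en) (φ + d) - O (l.map en) (φ - d) ≤
          O (l.map en) (φ + d) + O (l.map en) (φ - d) by linarith)
          (O_nonneg (l.map en) (dl a + dl x - dl u - dl v))]
    · nlinarith [mul_le_mul_of_nonneg_right (neg_le.1 hD.1) (sub_nonneg.2 hle),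
        mul_le_mul_of_nonneg_left (show O (l.map en) (φ - d) - O (l.map en) (φ + d) ≤
          O (l.map en) (φ + d) + O (l.map en) (φ - d) by linarith)
          (O_nonneg (l.map en) (dl a + dl x - dl u - dl v))]

/-- The couplings with both ends in `T`. -/
def inside (T : Set V) (J : ι → ℝ) : ι → ℝ :=
  cut (fun i => (en i).1 ∈ T ∧ (en i).2 ∈ T) J

/-- Lieb's inequality. -/
theorem G_le_sum (hJ : ∀ i, 0 ≤ J i) (I : Set V) (W : Finset V) (hWI : ∀ w ∈ W, w ∉ I)
    (hadj : ∀ i, (en i).1 ∈ I ∨ (en i).2 ∈ I → (en i).1 ∈ I ∪ ↑W ∧ (en i).2 ∈ I ∪ ↑W)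
    {a x : V} (ha : a ∈ I) (hx : x ∉ I) :
    G en J a x ≤ ∑ u ∈ W, G en (inside en (I ∪ ↑W) J) a u * G en J u x := by
  set S : ι → Prop := fun i => (en i).1 ∈ I ∪ ↑W ∧ (en i).2 ∈ I ∪ ↑W with hS
  have h := combination_nonneg en S hJ (Finset.univ.disjSum W : Finset (Unit ⊕ V))
    (Sum.elim (fun _ => -1) fun _ => 1) (Sum.elim (fun _ => dl a - dl x) fun u => dl u - dl x)
    (Sum.elim (fun _ => 0) fun u => dl a - dl u) fun l => ?_
  · simp only [Finset.sum_disjSum, Finset.univ_unique, Finset.sum_singleton, Sum.elim_inl,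
      Sum.elim_inr, one_mul] at h
    have h1 := Z_pos en J
    have h2 := Z_pos en (cut S J)
    show Z en J (dl a - dl x) / Z en J 0 ≤ ∑ u ∈ W, G en (cut S J) a u * G en J u x
    simp only [G, div_mul_div_comm, ← Finset.sum_div]
    rw [div_le_div_iff₀ h1 (mul_pos h2 h1)]
    have hsum : ∑ u ∈ W, Z en (cut S J) (dl a - dl u) * Z en J (dl u - dl x) =
        ∑ u ∈ W, Z en J (dl u - dl x) * Z en (cut S J) (dl a - dl u) :=
      Finset.sum_congr rfl fun u _ => mul_comm _ _
    rw [hsum]
    nlinarith
  · simp only [Finset.sum_disjSum, Finset.univ_unique, Finset.sum_singleton, Sum.elim_inl,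
      Sum.elim_inr, one_mul, add_zero, sub_zero]
    have hins : ∀ e ∈ insL S en l, (e.1 ∈ I → e.2 ∈ I ∨ e.2 ∈ W) ∧
        (e.2 ∈ I → e.1 ∈ I ∨ e.1 ∈ W) := fun e he => by
      obtain ⟨i, hi, rfl⟩ := List.mem_map.1 he
      obtain ⟨h1, h2⟩ : S i := by simpa using (List.mem_filter.1 hi).2
      exact ⟨fun _ => h2, fun _ => h1⟩
    have hout : ∀ e ∈ outL S en l, e.1 ∉ I ∧ e.2 ∉ I := fun e he => by
      obtain ⟨i, hi, rfl⟩ := List.mem_map.1 he
      have hn : ¬ S i := by simpa using (List.mem_filter.1 hi).2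
      exact ⟨fun h => hn (hadj i (Or.inl h)), fun h => hn (hadj i (Or.inr h))⟩
    have hk := K_exit_le I W (insL S en l) hins hWI ha (outL S en l) hout (dl a - dl x) (-dl x)
      fun v hv => by simp [dl_apply, show x ≠ v from fun h => hx (h ▸ hv)]
    simp only [← sub_eq_add_neg] at hk
    refine le_of_le_of_eq (sub_nonneg.2 hk) ?_
    rw [neg_one_mul, sub_eq_neg_add]
    congr 1
    refine Finset.sum_congr rfl fun u _ => ?_
    congr 1 <;> abel

/-- The energy is linear in the couplings. -/
lemma hasDerivAt_Z (J K : ι → ℝ) (φ : V → ℤ) (s : ℝ) :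
    HasDerivAt (fun r : ℝ => Z en (fun i => J i + r * K i) φ)
      (∑ i, K i * ((Z en (fun i => J i + s * K i) (φ + de (en i)) +
        Z en (fun i => J i + s * K i) (φ - de (en i))) / 2)) s := by
  set H : ℝ → (V → Ang) → ℝ := fun r θ =>
    Real.exp (energy en (fun i => J i + r * K i) θ) * cs (dot φ θ) with hH
  set H' : ℝ → (V → Ang) → ℝ := fun r θ =>
    Real.exp (energy en (fun i => J i + r * K i) θ) * energy en K θ * cs (dot φ θ) with hH'
  have hlin : ∀ r θ, energy en (fun i => J i + r * K i) θ = energy en J θ + r * energy en K θ :=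
    fun r θ => by simp [energy, add_mul, Finset.sum_add_distrib, Finset.mul_sum, mul_assoc]
  set C : (V → Ang) → ℝ := fun θ =>
    Real.exp (|energy en J θ| + (|s| + 1) * |energy en K θ|) * |energy en K θ| with hC
  have hd := hasDerivAt_integral_of_dominated_loc_of_deriv_le (μ := law V) (F := H) (F' := H')
    (bound := C) (Metric.ball_mem_nhds s one_pos)
    (Eventually.of_forall fun r => Continuous.aestronglyMeasurable (by rw [hH]; fun_prop))
    (integrable_of_continuous (by rw [hH]; fun_prop))
    (Continuous.aestronglyMeasurable (by rw [hH']; fun_prop))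
    (ae_of_all _ fun θ r hr => ?_) (integrable_of_continuous (by rw [hC]; fun_prop))
    (ae_of_all _ fun θ r _ => ?_)
  · refine hd.2.congr_deriv ?_
    have hpt : ∀ θ, H' s θ = ∑ i, K i * ((Real.exp (energy en (fun i => J i + s * K i) θ) *
        cs (dot (φ + de (en i)) θ) + Real.exp (energy en (fun i => J i + s * K i) θ) *
        cs (dot (φ - de (en i)) θ)) / 2) := fun θ => by
      simp only [hH']
      conv_lhs => rw [show energy en K θ = ∑ i, K i * cs (dot (de (en i)) θ) from rfl]
      rw [Finset.mul_sum, Finset.sum_mul]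
      refine Finset.sum_congr rfl fun i _ => ?_
      rw [← mul_add, dot_add, dot_sub, cs_add_sub]
      ring
    have hi : ∀ ψ : V → ℤ, Integrable (fun θ =>
        Real.exp (energy en (fun i => J i + s * K i) θ) * cs (dot ψ θ)) (law V) := fun ψ =>
      integrable_of_continuous (by fun_prop)
    rw [integral_congr_ae (ae_of_all _ hpt),
      integral_finsetSum _ fun i _ => (((hi _).fun_add (hi _)).div_const _).const_mul _]
    refine Finset.sum_congr rfl fun i _ => ?_
    rw [integral_const_mul, integral_div, integral_add (hi _) (hi _)]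
    rfl
  · simp only [hH', hC, hlin, norm_mul, Real.norm_eq_abs, Real.abs_exp]
    refine (mul_le_of_le_one_right (by positivity) (abs_cs_le _)).trans ?_
    refine mul_le_mul_of_nonneg_right (Real.exp_le_exp.2 (add_le_add (le_abs_self _) ?_))
      (abs_nonneg _)
    refine (le_abs_self _).trans ?_
    rw [abs_mul]
    refine mul_le_mul_of_nonneg_right ?_ (abs_nonneg _)
    have : |r - s| < 1 := by simpa [Real.dist_eq] using hr
    linarith [abs_sub_abs_le_abs_sub r s]
  · simp only [hH, hH', hlin]
    simpa [mul_comm, mul_assoc] using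
      (((hasDerivAt_id r).mul_const (energy en K θ)).const_add (energy en J θ)).exp.mul_const
        (cs (dot φ θ))

/-- The change of a correlation between two couplings. -/
theorem exists_slope (J J' : ι → ℝ) (a x : V) :
    ∃ s ∈ Set.Ioo (0 : ℝ) 1, G en J' a x - G en J a x =
      ∑ i, (J' i - J i) * (tru en (fun i => J i + s * (J' i - J i)) (dl a - dl x) (de (en i)) /
        Z en (fun i => J i + s * (J' i - J i)) 0 ^ 2) := by
  set K := fun i => J' i - J i with hK
  set Jr : ℝ → ι → ℝ := fun r i => J i + r * K i with hJr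
  have hd : ∀ r, HasDerivAt (fun r => G en (Jr r) a x)
      (∑ i, K i * (tru en (Jr r) (dl a - dl x) (de (en i)) / Z en (Jr r) 0 ^ 2)) r := fun r => by
    refine ((hasDerivAt_Z en J K (dl a - dl x) r).div (hasDerivAt_Z en J K 0 r)
      (Z_pos en _).ne').congr_deriv ?_
    simp only [zero_add, zero_sub, Z_neg, add_self_div_two, Finset.sum_mul, Finset.mul_sum]
    rw [← Finset.sum_sub_distrib, Finset.sum_div]
    refine Finset.sum_congr rfl fun i _ => ?_
    simp only [tru, hJr]
    ring
  obtain ⟨s, hs, hslope⟩ := exists_hasDerivAt_eq_slope (fun r => G en (Jr r) a x) _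
    (zero_lt_one' ℝ) (fun r _ => (hd r).continuousAt.continuousWithinAt) fun r _ => hd r
  refine ⟨s, hs, ?_⟩
  rw [sub_zero, div_one] at hslope
  simpa [hJr, hK] using hslope.symm

omit [Fintype ι] in
lemma interp_nonneg {J' : ι → ℝ} (hJ : ∀ i, 0 ≤ J i) (hJJ : ∀ i, J i ≤ J' i) {s : ℝ}
    (hs : 0 ≤ s) (i : ι) : 0 ≤ J i + s * (J' i - J i) :=
  add_nonneg (hJ i) (mul_nonneg hs (sub_nonneg.2 (hJJ i)))

/-- Ginibre: correlations increase with the couplings. -/
theorem G_mono {J' : ι → ℝ} (hJ : ∀ i, 0 ≤ J i) (hJJ : ∀ i, J i ≤ J' i) (a x : V) :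
    G en J a x ≤ G en J' a x := by
  obtain ⟨s, hs, h⟩ := exists_slope en J J' a x
  have : 0 ≤ G en J' a x - G en J a x := h ▸ Finset.sum_nonneg fun i _ =>
    mul_nonneg (sub_nonneg.2 (hJJ i)) (div_nonneg
      (tru_nonneg en (fun j => interp_nonneg hJ hJJ hs.1.le j) _ _) (sq_nonneg _))
  linarith

lemma G_le_one (J : ι → ℝ) (a x : V) : G en J a x ≤ 1 := by
  rw [G, div_le_one (Z_pos en J)]
  refine integral_mono (integrable_of_continuous (by fun_prop))
    (integrable_of_continuous (by fun_prop)) fun θ => ?_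
  simp only [dot_zero, cs_zero]
  exact mul_le_mul_of_nonneg_left (abs_le.1 (abs_cs_le _)).2 (Real.exp_nonneg _)

lemma G_self (J : ι → ℝ) (a : V) : G en J a a = 1 := by
  rw [G, sub_self, div_self (Z_pos en J).ne']

lemma G_comm (J : ι → ℝ) (a x : V) : G en J a x = G en J x a := by
  rw [G, G, ← Z_neg en J (dl a - dl x), neg_sub]

lemma G_free (a x : V) : G en (0 : ι → ℝ) a x = if a = x then 1 else 0 := by
  split_ifs with h
  · subst h; exact G_self en _ _
  · have hne : dl a - dl x ≠ 0 := fun h0 => by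
      have := congrFun h0 a
      simp [dl_apply, Ne.symm h] at this
    have he : ∀ φ : V → ℤ, Z en (0 : ι → ℝ) φ =
        ∫ ω, cs (dot φ ω.1 + dot 0 ω.2) ∂law2 V := fun φ => by
      simp only [Z, energy, Pi.zero_apply, zero_mul, Finset.sum_const_zero, Real.exp_zero, one_mul,
        dot_zero, add_zero, law2]
      rw [integral_fun_fst (fun θ => cs (dot φ θ))]
      simp
    rw [G, he, integral_cs2, if_neg fun h0 => hne h0.1, zero_div]

lemma G_nonneg (hJ : ∀ i, 0 ≤ J i) (a x : V) : 0 ≤ G en J a x := by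
  refine le_trans ?_ (G_mono en (J := 0) (fun _ => le_rfl) hJ a x)
  rw [G_free]
  split_ifs <;> norm_num

/-- The change of a correlation is bounded by products of correlations. -/
theorem G_sub_le {J' : ι → ℝ} (hJ : ∀ i, 0 ≤ J i) (hJJ : ∀ i, J i ≤ J' i) (a x : V) :
    G en J' a x - G en J a x ≤ ∑ i, (J' i - J i) *
      ((G en J' a (en i).1 * G en J' (en i).2 x + G en J' a (en i).2 * G en J' (en i).1 x) / 2) := by
  obtain ⟨s, hs, h⟩ := exists_slope en J J' a x
  rw [h]
  set Js : ι → ℝ := fun i => J i + s * (J' i - J i) with hJs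
  have h0 : ∀ i, 0 ≤ Js i := fun i => interp_nonneg hJ hJJ hs.1.le i
  have h1 : ∀ i, Js i ≤ J' i := fun i => by
    have := mul_le_of_le_one_left (sub_nonneg.2 (hJJ i)) hs.2.le
    simp only [hJs]; linarith
  refine Finset.sum_le_sum fun i _ => mul_le_mul_of_nonneg_left ?_ (sub_nonneg.2 (hJJ i))
  have hz := Z_pos en Js
  have hm : ∀ p q, G en Js p q ≤ G en J' p q := fun p q => G_mono en h0 h1 p q
  refine le_trans ?_ (div_le_div_of_nonneg_right (add_le_add
    (mul_le_mul (hm _ _) (hm _ _) (G_nonneg en h0 _ _) ((G_nonneg en h0 _ _).trans (hm _ _)))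
    (mul_le_mul (hm _ _) (hm _ _) (G_nonneg en h0 _ _) ((G_nonneg en h0 _ _).trans (hm _ _))))
    two_pos.le)
  rw [div_le_iff₀ (pow_pos hz 2)]
  refine (tru_le en h0 a x (en i).1 (en i).2).trans (le_of_eq ?_)
  unfold G
  field_simp

/-- Neighbours are positively correlated. -/
theorem G_edge_pos (hJ : ∀ i, 0 ≤ J i) {i : ι} (hi : 0 < J i) :
    0 < G en J (en i).1 (en i).2 := by
  have hmain := tendsto_part (fun _ : ι => True) en J (de (en i)) 0
  rw [cut_true] at hmain
  have hterm : ∀ (l : List ι), 0 ≤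
      K (outL (fun _ : ι => True) en l) (insL (fun _ : ι => True) en l) (de (en i) + 0)
        (de (en i) - 0) := fun l => by
    rw [K_true]; exact mul_nonneg (O_nonneg _ _) (O_nonneg _ _)
  have hmono : Monotone (part (fun _ : ι => True) en J (de (en i) + 0) (de (en i) - 0)) :=
    monotone_nat_of_le_succ fun n => by
      rw [part, part, Finset.sum_range_succ]
      exact le_add_of_nonneg_right (div_nonneg (Finset.sum_nonneg fun l _ =>
        mul_nonneg (Finset.prod_nonneg fun j _ => hJ _) (div_nonneg (hterm _) (by positivity)))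
        (Nat.cast_nonneg _))
  have hpos : 0 < part (fun _ : ι => True) en J (de (en i) + 0) (de (en i) - 0) 2 := by
    rw [part, Finset.sum_range_succ]
    refine add_pos_of_nonneg_of_pos (Finset.sum_nonneg fun k _ => div_nonneg
      (Finset.sum_nonneg fun l _ => mul_nonneg (Finset.prod_nonneg fun j _ => hJ _)
        (div_nonneg (hterm _) (by positivity))) (Nat.cast_nonneg _)) (div_pos ?_ (by positivity))
    refine lt_of_lt_of_le ?_ (Finset.single_le_sum (fun l _ => mul_nonneg
      (Finset.prod_nonneg fun j _ => hJ _) (div_nonneg (hterm _) (by positivity)))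
      (Finset.mem_univ fun _ : Fin 1 => i))
    refine mul_pos (by simpa using hi) (div_pos ?_ (by positivity))
    have h1 : 1 ≤ O [en i] (de (en i)) := by
      rw [O_cons, O_nil, O_nil, sub_self, if_pos rfl]
      split_ifs <;> norm_num
    rw [K_true]
    simp only [List.ofFn_succ, List.ofFn_zero, List.map_cons, List.map_nil, add_zero, sub_zero]
    positivity
  have hzz : 0 < Z en J (de (en i)) * Z en J 0 :=
    hpos.trans_le (hmono.ge_of_tendsto hmain 2)
  exact div_pos (pos_of_mul_pos_left hzz (Z_pos en J).le) (Z_pos en J)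

/-- An embedded graph, seen in the larger one. -/
theorem G_extend {V' ι' : Type*} [Fintype V'] [Fintype ι'] (en' : ι' → V' × V') (g : V → V')
    (hg : Function.Injective g) (τ : ι → ι') (hτ : Function.Injective τ)
    (he : ∀ i, en' (τ i) = Prod.map g g (en i) ∨ en' (τ i) = (Prod.map g g (en i)).swap)
    (J : ι → ℝ) (a x : V) :
    G en' (Function.extend τ J 0) (g a) (g x) = G en J a x := by
  set J0 : ι' → ℝ := Function.extend τ J 0 with hJ0
  let R : (V' → Ang) →+ (V → Ang) :=
    { toFun := fun θ => θ ∘ g, map_zero' := rfl, map_add' := fun _ _ => rfl }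
  have hRc : Continuous R := continuous_pi fun v => continuous_apply (g v)
  have hR : MeasurePreserving R (law V') (law V) :=
    AddMonoidHom.measurePreserving hRc
      (fun θ => ⟨Function.extend g θ 0, funext fun v => hg.extend_apply θ 0 v⟩)
      (by simp)
  have hen : ∀ θ : V' → Ang, energy en' J0 θ = energy en J (R θ) := fun θ => by
    simp only [energy]
    refine (Fintype.sum_of_injective τ hτ _ _ (fun k hk => ?_) fun i => ?_).symm
    · rw [hJ0, Function.extend_apply' _ _ _ fun ⟨i, hi⟩ => hk ⟨i, hi⟩]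
      simp
    · rw [hJ0, hτ.extend_apply, dot_de, dot_de]
      rcases he i with h | h <;> rw [h]
      · rfl
      · rw [← cs_neg, neg_sub]; rfl
  have hZ : ∀ p q : V, Z en' J0 (dl (g p) - dl (g q)) = Z en J (dl p - dl q) := fun p q => by
    rw [Z, Z]
    conv_rhs => rw [← hR.map_eq, integral_map hR.measurable.aemeasurable
      (Continuous.aestronglyMeasurable (by fun_prop))]
    refine integral_congr_ae (ae_of_all _ fun θ => ?_)
    show Real.exp (energy en' J0 θ) * cs (dot (de (g p, g q)) θ) =
      Real.exp (energy en J (R θ)) * cs (dot (de (p, q)) (R θ))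
    rw [hen, dot_de, dot_de]
    rfl
  have h00 := hZ a a
  simp only [sub_self] at h00
  rw [G, G, hZ, h00]

/-- Embedded graphs have smaller correlations. -/
theorem G_map_le {V' ι' : Type*} [Fintype V'] [Fintype ι'] (en' : ι' → V' × V') {J' : ι' → ℝ}
    (g : V → V') (hg : Function.Injective g) (τ : ι → ι') (hτ : Function.Injective τ)
    (he : ∀ i, en' (τ i) = Prod.map g g (en i) ∨ en' (τ i) = (Prod.map g g (en i)).swap)
    (hJ : ∀ i, 0 ≤ J i) (hJ' : ∀ k, 0 ≤ J' k) (hJJ : ∀ i, J i ≤ J' (τ i)) (a x : V) :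
    G en J a x ≤ G en' J' (g a) (g x) := by
  have h0 : ∀ k, 0 ≤ Function.extend τ J 0 k ∧ Function.extend τ J 0 k ≤ J' k := fun k => by
    by_cases hk : ∃ i, τ i = k
    · obtain ⟨i, rfl⟩ := hk
      rw [hτ.extend_apply]
      exact ⟨hJ i, hJJ i⟩
    · rw [Function.extend_apply' _ _ _ hk]
      exact ⟨le_rfl, hJ' k⟩
  exact (G_extend en en' g hg τ hτ he J a x).symm.trans_le
    (G_mono en' (fun k => (h0 k).1) (fun k => (h0 k).2) _ _)

end

end Vale.Agent.P159
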