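import Vale.Agent.P159.Ineq

/-!
# P159: the free boxes of the square lattice

The limits defining `C` and `mass` exist; translations, symmetries and the decay rate.
-/

namespace Vale.Agent.P159

open MeasureTheory Filter Finset
open scoped Classical Topology

noncomputable section

/-- The unit step in a direction. -/
def step (d : Fin 2) : Site := if d = 0 then (1, 0) else (0, 1)

lemma step_inj {d d' : Fin 2} (h : step d = step d') : d = d' := by
  fin_cases d <;> fin_cases d' <;> simp_all [step]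

/-- The bonds of the box, each counted once. -/
abbrev Bond (R : ℕ) := {i : Box R × Fin 2 // (i.1 : Site) + step i.2 ∈ boxSet R}

/-- The ends of a bond. -/
def ends (R : ℕ) (i : Bond R) : Box R × Box R := (i.1.1, ⟨(i.1.1 : Site) + step i.1.2, i.2⟩)

/-- The sup norm. -/
def nv (x : Site) : ℕ := max x.1.natAbs x.2.natAbs

lemma mem_boxSet {R : ℕ} {x : Site} : x ∈ boxSet R ↔ nv x ≤ R := by
  simp only [boxSet, mem_product, mem_Icc, nv, max_le_iff]
  omega

lemma nv_neg (x : Site) : nv (-x) = nv x := by simp [nv]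

lemma nv_step (x : Site) (d : Fin 2) : nv x ≤ nv (x + step d) + 1 ∧ nv (x + step d) ≤ nv x + 1 := by
  fin_cases d <;> simp [nv, step] <;> omega

lemma nv_add_le (x y : Site) : nv (x + y) ≤ nv x + nv y := by
  simp only [nv, Prod.fst_add, Prod.snd_add]
  omega

lemma boxEnergy_eq (R : ℕ) (θ : Box R → Ang) :
    boxEnergy R θ = ∑ i : Bond R, cs (dot (de (ends R i)) θ) := by
  simp only [dot_de, ends, boxEnergy]
  have hbond : ∑ i : Bond R, cs (θ i.1.1 - θ ⟨(i.1.1 : Site) + step i.1.2, i.2⟩) =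
      ∑ p : Box R × Fin 2, if h : (p.1 : Site) + step p.2 ∈ boxSet R then
        cs (θ p.1 - θ ⟨(p.1 : Site) + step p.2, h⟩) else 0 := by
    symm
    refine (Fintype.sum_of_injective (fun i : Bond R => i.1) Subtype.val_injective _ _
      (fun p hp => ?_) fun i => ?_).symm
    · rw [dif_neg fun h => hp ⟨⟨p, h⟩, rfl⟩]
    · rw [dif_pos i.2]
  rw [hbond, Fintype.sum_prod_type]
  refine sum_congr rfl fun x _ => ?_
  rw [Fin.sum_univ_two]
  have hone : ∀ (z : Site), (∑ y : Box R, if (y : Site) = z then cs (θ x - θ y) else 0) =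
      if h : z ∈ boxSet R then cs (θ x - θ ⟨z, h⟩) else 0 := fun z => by
    split_ifs with h
    · rw [Finset.sum_eq_single ⟨z, h⟩ (fun y _ hy => if_neg fun e => hy (Subtype.ext e))
        (by simp), if_pos rfl]
    · exact sum_eq_zero fun y _ => if_neg fun (e : (y : Site) = z) => h (e ▸ y.2)
  simp only [step, if_true, Fin.isValue, show ((1 : Fin 2) = 0) = False by simp, if_false]
  rw [← hone, ← hone, ← sum_add_distrib]
  refine sum_congr rfl fun y _ => ?_
  have hne : (x : Site) + (1, 0) ≠ (x : Site) + (0, 1) := by simp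
  split_ifs with h1 h2 h3 <;> simp_all

/-- The two point function of the box. -/
def Gb (R : ℕ) (b : ℝ) (x y : Box R) : ℝ := G (ends R) (fun _ => b) x y

lemma corrBox_eq {R : ℕ} {b : ℝ} {x y : Site} (hx : x ∈ boxSet R) (hy : y ∈ boxSet R) :
    corrBox R b x y = Gb R b ⟨x, hx⟩ ⟨y, hy⟩ := by
  have he : ∀ θ, energy (ends R) (fun _ => b) θ = b * boxEnergy R θ := fun θ => by
    rw [boxEnergy_eq, mul_sum, energy]
  rw [corrBox, dif_pos ⟨hx, hy⟩, expect, Gb, G, Z, Z]
  simp only [he, dot_zero, cs_zero, mul_one]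
  refine congrArg (· / _) (integral_congr_ae (ae_of_all _ fun θ => ?_))
  have := dot_de ((⟨x, hx⟩ : Box R), (⟨y, hy⟩ : Box R)) θ
  simp only [de] at this
  simp only [this]

lemma corrBox_zero {R : ℕ} {b : ℝ} {x y : Site} (h : ¬ (x ∈ boxSet R ∧ y ∈ boxSet R)) :
    corrBox R b x y = 0 := dif_neg h

lemma corrBox_mem_Icc {b : ℝ} (hb : 0 ≤ b) (R : ℕ) (x y : Site) :
    0 ≤ corrBox R b x y ∧ corrBox R b x y ≤ 1 := by
  by_cases h : x ∈ boxSet R ∧ y ∈ boxSet R
  · rw [corrBox_eq h.1 h.2]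
    exact ⟨G_nonneg _ (fun _ => hb) _ _, G_le_one _ _ _ _⟩
  · rw [corrBox_zero h]; norm_num

lemma corrBox_mono {b b' : ℝ} (hb : 0 ≤ b) (hbb : b ≤ b') (R : ℕ) (x y : Site) :
    corrBox R b x y ≤ corrBox R b' x y := by
  by_cases h : x ∈ boxSet R ∧ y ∈ boxSet R
  · rw [corrBox_eq h.1 h.2, corrBox_eq h.1 h.2]
    exact G_mono _ (fun _ => hb) (fun _ => hbb) _ _
  · rw [corrBox_zero h, corrBox_zero h]

lemma corrBox_comm {b : ℝ} (R : ℕ) (x y : Site) : corrBox R b x y = corrBox R b y x := by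
  by_cases h : x ∈ boxSet R ∧ y ∈ boxSet R
  · rw [corrBox_eq h.1 h.2, corrBox_eq h.2 h.1, Gb, Gb, G_comm]
  · rw [corrBox_zero h, corrBox_zero fun h' => h h'.symm]

lemma corrBox_self {b : ℝ} {R : ℕ} {x : Site} (hx : x ∈ boxSet R) : corrBox R b x x = 1 := by
  rw [corrBox_eq hx hx, Gb, G_self]

/-- Maps of the lattice which send bonds to bonds. -/
def IsSym (g : Site → Site) : Prop :=
  Function.Injective g ∧ ∀ x d, ∃ d', g (x + step d) = g x + step d' ∨ g x = g (x + step d) + step d'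

/-- A symmetry does not decrease correlations in boxes that contain the image. -/
lemma corrBox_le_map {b : ℝ} (hb : 0 ≤ b) {g : Site → Site} (hg : IsSym g) {R R' : ℕ}
    (hR : ∀ z ∈ boxSet R, g z ∈ boxSet R') (x y : Site) :
    corrBox R b x y ≤ corrBox R' b (g x) (g y) := by
  by_cases h : x ∈ boxSet R ∧ y ∈ boxSet R
  swap
  · rw [corrBox_zero h]; exact (corrBox_mem_Icc hb _ _ _).1
  rw [corrBox_eq h.1 h.2, corrBox_eq (hR _ h.1) (hR _ h.2)]
  let gB : Box R → Box R' := fun z => ⟨g z, hR _ z.2⟩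
  have hgB : Function.Injective gB := fun z w e => Subtype.ext (hg.1 (congrArg Subtype.val e))
  have key : ∀ i : Bond R, ∃ k : Bond R', ends R' k = Prod.map gB gB (ends R i) ∨
      ends R' k = (Prod.map gB gB (ends R i)).swap := fun i => by
    obtain ⟨d', h' | h'⟩ := hg.2 i.1.1 i.1.2
    · exact ⟨⟨(gB i.1.1, d'), h' ▸ hR _ i.2⟩, Or.inl (Prod.ext rfl (Subtype.ext h'.symm))⟩
    · exact ⟨⟨(⟨g ((i.1.1 : Site) + step i.1.2), hR _ i.2⟩, d'), h' ▸ hR _ i.1.1.2⟩,
        Or.inr (Prod.ext rfl (Subtype.ext h'.symm))⟩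
  choose τ hτ using key
  have hτi : Function.Injective τ := fun i j e => by
    have hi := hτ i
    have hj := hτ j
    rw [← e] at hj
    have hfin : ∀ {a a' : Box R} {d d' : Fin 2}, (a' : Site) = (a : Site) + step d →
        (a : Site) = (a' : Site) + step d' → False := fun {a a' d d'} h1 h2 => by
      rw [h1, add_assoc, left_eq_add] at h2
      fin_cases d <;> fin_cases d' <;> simp [step, Prod.ext_iff] at h2
    have hone : Prod.map gB gB (ends R i) = Prod.map gB gB (ends R j) ∨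
        Prod.map gB gB (ends R i) = (Prod.map gB gB (ends R j)).swap := by
      rcases hi with hi | hi <;> rcases hj with hj | hj <;> rw [hi] at hj
      · exact Or.inl hj
      · exact Or.inr hj
      · exact Or.inr (by rw [← hj, Prod.swap_swap])
      · exact Or.inl (Prod.swap_injective hj)
    rcases hone with h' | h'
    · obtain ⟨h1, h2⟩ := Prod.ext_iff.1 h'
      have e1 : i.1.1 = j.1.1 := hgB h1
      have e2 := congrArg Subtype.val (hgB h2)
      simp only [ends, e1, add_right_inj] at e2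
      exact Subtype.ext (Prod.ext e1 (step_inj e2))
    · obtain ⟨h1, h2⟩ := Prod.ext_iff.1 h'
      exact (hfin (congrArg Subtype.val (hgB h1)) (congrArg Subtype.val (hgB h2)).symm).elim
  exact G_map_le (ends R) (ends R') gB hgB τ hτi hτ (fun _ => hb) (fun _ => hb) (fun _ => le_rfl) _ _

lemma isSym_id : IsSym id := ⟨fun _ _ h => h, fun _ d => ⟨d, Or.inl rfl⟩⟩

lemma isSym_add (v : Site) : IsSym (· + v) :=
  ⟨add_left_injective v, fun x d => ⟨d, Or.inl (add_right_comm x (step d) v)⟩⟩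

lemma isSym_neg : IsSym (fun x => -x) :=
  ⟨neg_injective, fun x d => ⟨d, Or.inr (by simp)⟩⟩

lemma isSym_swap : IsSym Prod.swap :=
  ⟨Prod.swap_injective, fun x d => ⟨1 - d, Or.inl (by
    fin_cases d <;> simp [step, Prod.ext_iff])⟩⟩

lemma isSym_flip : IsSym (fun x => (x.1, -x.2)) :=
  ⟨fun a b h => by simp only [Prod.mk.injEq, neg_inj] at h; exact Prod.ext h.1 h.2, fun x d => by
    fin_cases d
    · exact ⟨0, Or.inl (by simp [step])⟩
    · exact ⟨1, Or.inr (by simp [step])⟩⟩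

lemma corrBox_mono_box {b : ℝ} (hb : 0 ≤ b) {R R' : ℕ} (h : R ≤ R') (x y : Site) :
    corrBox R b x y ≤ corrBox R' b x y :=
  corrBox_le_map hb isSym_id (fun _ hz => mem_boxSet.2 ((mem_boxSet.1 hz).trans h)) x y

/-- The correlation of the infinite volume. -/
def Cinf (b : ℝ) (x y : Site) : ℝ := ⨆ R, corrBox R b x y

variable {b : ℝ}

lemma bddAbove_corrBox (hb : 0 ≤ b) (x y : Site) :
    BddAbove (Set.range fun R => corrBox R b x y) :=
  ⟨1, by rintro _ ⟨R, rfl⟩; exact (corrBox_mem_Icc hb R x y).2⟩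

lemma corrBox_le_Cinf (hb : 0 ≤ b) (R : ℕ) (x y : Site) : corrBox R b x y ≤ Cinf b x y :=
  le_ciSup (bddAbove_corrBox hb x y) R

lemma tendsto_corrBox (hb : 0 ≤ b) (x y : Site) :
    Tendsto (fun R => corrBox R b x y) atTop (𝓝 (Cinf b x y)) :=
  tendsto_atTop_ciSup (fun _ _ h => corrBox_mono_box hb h x y) (bddAbove_corrBox hb x y)

lemma C_eq (hb : 0 ≤ b) (r : ℕ) : C b r = Cinf b 0 ((r : ℤ), 0) :=
  (tendsto_corrBox hb _ _).limUnder_eq

lemma Cinf_nonneg (hb : 0 ≤ b) (x y : Site) : 0 ≤ Cinf b x y :=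
  (corrBox_mem_Icc hb 0 x y).1.trans (corrBox_le_Cinf hb 0 x y)

lemma Cinf_le_one (hb : 0 ≤ b) (x y : Site) : Cinf b x y ≤ 1 :=
  ciSup_le fun R => (corrBox_mem_Icc hb R x y).2

lemma Cinf_mono {b' : ℝ} (hb : 0 ≤ b) (hbb : b ≤ b') (x y : Site) : Cinf b x y ≤ Cinf b' x y :=
  ciSup_mono (bddAbove_corrBox (hb.trans hbb) x y) fun R => corrBox_mono hb hbb R x y

lemma Cinf_comm (x y : Site) : Cinf b x y = Cinf b y x := by
  simp only [Cinf, corrBox_comm _ x y]

lemma Cinf_self (hb : 0 ≤ b) (x : Site) : Cinf b x x = 1 := by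
  refine le_antisymm (Cinf_le_one hb x x) ?_
  rw [← corrBox_self (b := b) (R := nv x) (mem_boxSet.2 le_rfl)]
  exact corrBox_le_Cinf hb _ x x

lemma exists_image_le (g : Site → Site) (R : ℕ) :
    ∃ R', ∀ z ∈ boxSet R, g z ∈ boxSet R' :=
  ⟨(boxSet R).sup fun z => nv (g z), fun _ hz =>
    mem_boxSet.2 (Finset.le_sup (f := fun z => nv (g z)) hz)⟩

lemma Cinf_le_map (hb : 0 ≤ b) {g : Site → Site} (hg : IsSym g) (x y : Site) :
    Cinf b x y ≤ Cinf b (g x) (g y) :=
  ciSup_le fun R => by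
    obtain ⟨R', hR'⟩ := exists_image_le g R
    exact (corrBox_le_map hb hg hR' x y).trans (corrBox_le_Cinf hb R' _ _)

lemma Cinf_add (hb : 0 ≤ b) (x y v : Site) : Cinf b (x + v) (y + v) = Cinf b x y :=
  le_antisymm (by simpa using Cinf_le_map hb (isSym_add (-v)) (x + v) (y + v))
    (Cinf_le_map hb (isSym_add v) x y)

lemma Cinf_sub (hb : 0 ≤ b) (x y : Site) : Cinf b x y = Cinf b 0 (y - x) := by
  rw [← Cinf_add hb x y (-x)]; simp [sub_eq_add_neg]

lemma Cinf_neg (hb : 0 ≤ b) (x : Site) : Cinf b 0 (-x) = Cinf b 0 x :=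
  le_antisymm (by simpa using Cinf_le_map hb isSym_neg 0 (-x))
    (by simpa using Cinf_le_map hb isSym_neg 0 x)

lemma Cinf_swap (hb : 0 ≤ b) (x : Site) : Cinf b 0 x.swap = Cinf b 0 x :=
  le_antisymm (by simpa using Cinf_le_map hb isSym_swap 0 x.swap)
    (by simpa using Cinf_le_map hb isSym_swap 0 x)

lemma Cinf_mul_le (hb : 0 ≤ b) (x y z : Site) : Cinf b x y * Cinf b y z ≤ Cinf b x z := by
  refine le_of_tendsto_of_tendsto' ((tendsto_corrBox hb x y).mul (tendsto_corrBox hb y z))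
    (tendsto_corrBox hb x z) fun R => ?_
  by_cases h : x ∈ boxSet R ∧ y ∈ boxSet R ∧ z ∈ boxSet R
  · rw [corrBox_eq h.1 h.2.1, corrBox_eq h.2.1 h.2.2, corrBox_eq h.1 h.2.2]
    exact G_mul_le _ (fun _ => hb) _ _ _
  · rcases not_and_or.1 h with h | h
    · rw [corrBox_zero fun h' => h h'.1, zero_mul]
      exact (corrBox_mem_Icc hb _ _ _).1
    rcases not_and_or.1 h with h | h
    · rw [corrBox_zero fun h' => h h'.2, zero_mul]
      exact (corrBox_mem_Icc hb _ _ _).1
    · rw [corrBox_zero (x := y) fun h' => h h'.2, mul_zero]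
      exact (corrBox_mem_Icc hb _ _ _).1

lemma Cinf_one_pos (hb : 0 < b) : 0 < Cinf b 0 (1, 0) := by
  have h0 : (0 : Site) ∈ boxSet 1 := mem_boxSet.2 (by simp [nv])
  have h1 : (0 : Site) + step 0 ∈ boxSet 1 := mem_boxSet.2 (by simp [nv, step])
  refine lt_of_lt_of_le ?_ (corrBox_le_Cinf hb.le 1 0 (1, 0))
  rw [show ((1, 0) : Site) = 0 + step 0 by simp [step], corrBox_eq h0 h1]
  exact G_edge_pos (ends 1) (fun _ => hb.le) (i := ⟨(⟨0, h0⟩, 0), h1⟩) hb

lemma C_pos (hb : 0 < b) : ∀ r : ℕ, 0 < C b r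
  | 0 => by rw [C_eq hb.le]; simpa using (Cinf_self hb.le (0 : Site)).symm ▸ zero_lt_one
  | r + 1 => by
    have h := C_pos hb r
    rw [C_eq hb.le] at h ⊢
    refine lt_of_lt_of_le (mul_pos h (Cinf_one_pos hb)) ?_
    refine le_of_eq_of_le ?_ (Cinf_mul_le hb.le 0 ((r : ℤ), 0) (((r + 1 : ℕ) : ℤ), 0))
    rw [Cinf_sub hb.le ((r : ℤ), 0) (((r + 1 : ℕ) : ℤ), 0)]
    simp

lemma C_mul_le (hb : 0 ≤ b) (r s : ℕ) : C b r * C b s ≤ C b (r + s) := by
  rw [C_eq hb, C_eq hb, C_eq hb]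
  refine le_of_eq_of_le ?_ (Cinf_mul_le hb 0 ((r : ℤ), 0) (((r + s : ℕ) : ℤ), 0))
  rw [Cinf_sub hb ((r : ℤ), 0) (((r + s : ℕ) : ℤ), 0)]
  simp

lemma C_le_one (hb : 0 ≤ b) (r : ℕ) : C b r ≤ 1 := by rw [C_eq hb]; exact Cinf_le_one hb _ _

lemma subadditive_log (hb : 0 < b) : Subadditive fun r => -Real.log (C b r) := fun r s => by
  have := Real.log_le_log (mul_pos (C_pos hb r) (C_pos hb s)) (C_mul_le hb.le r s)
  rw [Real.log_mul (C_pos hb r).ne' (C_pos hb s).ne'] at this
  linarith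

lemma bddBelow_log (hb : 0 < b) :
    BddBelow (Set.range fun r : ℕ => -Real.log (C b r) / r) := by
  refine ⟨0, ?_⟩
  rintro _ ⟨r, rfl⟩
  exact div_nonneg (neg_nonneg.2 (Real.log_nonpos (C_pos hb r).le (C_le_one hb.le r)))
    (Nat.cast_nonneg r)

/-- The limit defining the mass exists. -/
lemma tendsto_mass (hb : 0 < b) :
    Tendsto (fun r : ℕ => -Real.log (C b r) / r) atTop (𝓝 (mass b)) := by
  have h := (subadditive_log hb).tendsto_lim (bddBelow_log hb)
  rwa [show mass b = (subadditive_log hb).lim from h.limUnder_eq]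

lemma mass_le (hb : 0 < b) {r : ℕ} (hr : r ≠ 0) : mass b ≤ -Real.log (C b r) / r := by
  rw [show mass b = (subadditive_log hb).lim from
    ((subadditive_log hb).tendsto_lim (bddBelow_log hb)).limUnder_eq]
  exact (subadditive_log hb).lim_le_div (bddBelow_log hb) hr

lemma mass_nonneg (hb : 0 < b) : 0 ≤ mass b :=
  ge_of_tendsto' (tendsto_mass hb) fun r => div_nonneg
    (neg_nonneg.2 (Real.log_nonpos (C_pos hb r).le (C_le_one hb.le r))) (Nat.cast_nonneg r)

lemma mass_anti {b' : ℝ} (hb : 0 < b) (hbb : b ≤ b') : mass b' ≤ mass b := by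
  refine le_of_tendsto_of_tendsto' (tendsto_mass (hb.trans_le hbb)) (tendsto_mass hb) fun r => ?_
  refine div_le_div_of_nonneg_right (neg_le_neg (Real.log_le_log (C_pos hb r) ?_)) (Nat.cast_nonneg r)
  rw [C_eq hb.le, C_eq (hb.le.trans hbb)]
  exact Cinf_mono hb.le hbb _ _

lemma C_le_exp (hb : 0 < b) (r : ℕ) : C b r ≤ Real.exp (-mass b * r) := by
  rcases Nat.eq_zero_or_pos r with rfl | hr
  · simpa using C_le_one hb.le 0
  have h := mass_le hb hr.ne'
  rw [le_div_iff₀ (by exact_mod_cast hr)] at h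
  refine (Real.exp_log (C_pos hb r)).symm.le.trans (Real.exp_le_exp.2 ?_)
  linarith

/-- Correlations decay at rate `mass b` in the sup norm. -/
theorem Cinf_le_exp (hb : 0 < b) (v : Site) : Cinf b 0 v ≤ Real.exp (-mass b * nv v) := by
  have key : ∀ w : Site, Cinf b 0 w ≤ Real.exp (-mass b * w.1.natAbs) := by
    intro w
    have h1 : Cinf b 0 w * Cinf b w (2 * w.1, 0) ≤ Cinf b 0 (2 * w.1, 0) := Cinf_mul_le hb.le _ _ _
    have h2 : Cinf b w (2 * w.1, 0) = Cinf b 0 w := by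
      rw [Cinf_sub hb.le]
      have e0 : (((0 : Site).1, -(0 : Site).2) : Site) = 0 := by simp
      have e1 : ((2 * w.1, 0) : Site) - w = (w.1, -w.2) := by
        ext <;> simp <;> omega
      have e2 : (((w.1, -w.2) : Site).1, -((w.1, -w.2) : Site).2) = w := by simp
      rw [e1]
      refine le_antisymm ?_ ?_
      · have h := Cinf_le_map hb.le isSym_flip 0 (w.1, -w.2)
        rwa [e0, e2] at h
      · have h := Cinf_le_map hb.le isSym_flip 0 w
        rwa [e0] at h
    have h3 : Cinf b 0 (2 * w.1, 0) = C b (2 * w.1.natAbs) := by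
      rw [C_eq hb.le]
      rcases Int.natAbs_eq w.1 with h | h
      · congr 2; omega
      · rw [← Cinf_neg hb.le]
        congr 1
        simp only [Prod.neg_mk, neg_zero, Prod.mk.injEq, and_true]
        omega
    rw [h2, h3] at h1
    have h4 := h1.trans (C_le_exp hb (2 * w.1.natAbs))
    rw [show -mass b * ((2 * w.1.natAbs : ℕ) : ℝ) =
      -mass b * w.1.natAbs + -mass b * w.1.natAbs by push_cast; ring, Real.exp_add] at h4
    exact nonneg_le_nonneg_of_sq_le_sq (Real.exp_nonneg _) h4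
  rcases le_total v.2.natAbs v.1.natAbs with h | h
  · rw [show nv v = v.1.natAbs from max_eq_left h]
    exact key v
  · rw [show nv v = v.2.natAbs from max_eq_right h, ← Cinf_swap hb.le]
    exact key v.swap

end

end Vale.Agent.P159
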