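import Vale.Agent.P159.Shell

/-!
# P159: a power law upper bound in free boxes (McBryan-Spencer shift)

The shift is made term by term on the expansion, so no contour is moved.
-/

namespace Vale.Agent.P159

open MeasureTheory Filter Finset
open scoped Classical Topology

noncomputable section

/-- The sine of an angle. -/
def sn (x : Ang) : ℝ := Real.Angle.sin x

@[fun_prop]
lemma continuous_sn : Continuous sn := Real.Angle.continuous_sin

/-- The character of an angle. -/
def ei (x : Ang) : ℂ := ⟨cs x, sn x⟩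

lemma ei_add (x y : Ang) : ei (x + y) = ei x * ei y := by
  have h1 : cs (x + y) = cs x * cs y - sn x * sn y := Real.Angle.cos_add x y
  have h2 : sn (x + y) = sn x * cs y + cs x * sn y := Real.Angle.sin_add x y
  apply Complex.ext <;> simp [ei, h1, h2, Complex.mul_re, Complex.mul_im] <;> ring

lemma ei_zero : ei 0 = 1 := by
  have h1 : cs 0 = 1 := cs_zero
  have h2 : sn 0 = 0 := Real.Angle.sin_zero
  apply Complex.ext <;> simp [ei, h1, h2]

@[fun_prop]
lemma continuous_ei : Continuous ei := by
  have : ei = fun x => (cs x : ℂ) + (sn x : ℂ) * Complex.I := by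
    funext x; apply Complex.ext <;> simp [ei]
  rw [this]; fun_prop

lemma norm_ei (x : Ang) : ‖ei x‖ = 1 := by
  rw [Complex.norm_def, Complex.normSq_apply]
  have : cs x ^ 2 + sn x ^ 2 = 1 := Real.Angle.cos_sq_add_sin_sq x
  rw [show (ei x).re * (ei x).re + (ei x).im * (ei x).im = cs x ^ 2 + sn x ^ 2 by simp [ei]; ring,
    this, Real.sqrt_one]

variable {V : Type*} [Fintype V]

lemma integrable_complex {f : (V → Ang) → ℂ} (hf : Continuous f) : Integrable f (law V) :=
  hf.integrable_of_hasCompactSupport (HasCompactSupport.of_compactSpace f)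

/-- A nontrivial character integrates to zero. -/
theorem integral_ei (φ : V → ℤ) : ∫ θ, ei (dot φ θ) ∂law V = if φ = 0 then 1 else 0 := by
  split_ifs with h
  · simp [h, dot_zero, ei_zero]
  obtain ⟨v, hv⟩ := Function.ne_iff.1 h
  set c : V → Ang := Pi.single v (((Real.pi / φ v : ℝ)) : Ang) with hcdef
  have hc : dot φ c = ((Real.pi : ℝ) : Ang) := by
    rw [dot, Finset.sum_eq_single v (fun w _ hw => by simp [hcdef, hw]) (by simp), hcdef,
      Pi.single_eq_same, ← AddCircle.coe_zsmul, zsmul_eq_mul, mul_div_cancel₀]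
    exact_mod_cast hv
  have hpi : ei ((Real.pi : ℝ) : Ang) = -1 := by
    have h1 : cs ((Real.pi : ℝ) : Ang) = -1 := Real.Angle.cos_coe_pi
    have h2 : sn ((Real.pi : ℝ) : Ang) = 0 := Real.Angle.sin_coe_pi
    apply Complex.ext <;> simp [ei, h1, h2]
  have he := integral_add_right_eq_self (fun θ : V → Ang => ei (dot φ θ)) c (μ := law V)
  rw [integral_congr_ae (ae_of_all _ fun θ => by
    rw [dot_add_right, hc, ei_add, hpi, mul_neg_one]), integral_neg] at he
  linear_combination -(1 / 2 : ℂ) * he

variable {ι : Type*} (en : ι → V × V) (a : V → ℝ)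

/-- The value of the shift on a charge. -/
def pot (φ : V → ℤ) : ℝ := ∑ v, (φ v : ℝ) * a v

lemma pot_add (φ ψ : V → ℤ) : pot a (φ + ψ) = pot a φ + pot a ψ := by
  simp [pot, add_mul, sum_add_distrib]

lemma pot_sub (φ ψ : V → ℤ) : pot a (φ - ψ) = pot a φ - pot a ψ := by
  simp [pot, sub_mul, sum_sub_distrib]

lemma pot_de (e : V × V) : pot a (de e) = a e.1 - a e.2 := by
  rw [de, pot_sub]
  simp [pot, dl, Pi.single_apply, apply_ite]

/-- The factor of a shifted edge. -/
def tilt (i : ι) (θ : V → Ang) : ℂ :=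
  (Real.exp (pot a (de (en i))) * ei (dot (de (en i)) θ) +
    Real.exp (-pot a (de (en i))) * ei (-dot (de (en i)) θ)) / 2

@[fun_prop]
lemma continuous_tilt (i : ι) : Continuous (tilt en a i) := by unfold tilt; fun_prop

lemma tilt_re (i : ι) (θ : V → Ang) :
    (tilt en a i θ).re = Real.cosh (pot a (de (en i))) * cs (dot (de (en i)) θ) := by
  have hn : cs (-dot (de (en i)) θ) = cs (dot (de (en i)) θ) := cs_neg _
  simp [tilt, ei, Real.cosh_eq, hn, -Complex.ofReal_exp]
  ring

theorem integral_prod_tilt : ∀ (l : List ι) (φ : V → ℤ),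
    ∫ θ, (l.map fun i => tilt en a i θ).prod * ei (dot φ θ) ∂law V =
      ((Real.exp (-pot a φ) * O (l.map en) φ / 2 ^ l.length : ℝ) : ℂ) := by
  intro l
  induction l with
  | nil =>
    intro φ
    simp only [List.map_nil, List.prod_nil, one_mul, integral_ei, O_nil, List.length_nil]
    split_ifs with h <;> simp [h, pot]
  | cons i l ih =>
    intro φ
    set d := de (en i) with hd
    have hint : ∀ ψ : V → ℤ, Integrable
        (fun θ => (l.map fun j => tilt en a j θ).prod * ei (dot ψ θ)) (law V) := fun ψ =>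
      integrable_complex ((continuous_list_prod _ fun j _ => continuous_tilt en a j).mul (by fun_prop))
    have hpt : ∀ θ : V → Ang, ((i :: l).map fun j => tilt en a j θ).prod * ei (dot φ θ) =
        ((Real.exp (pot a d) : ℂ) * ((l.map fun j => tilt en a j θ).prod * ei (dot (φ + d) θ)) +
          (Real.exp (-pot a d) : ℂ) * ((l.map fun j => tilt en a j θ).prod * ei (dot (φ - d) θ))) / 2 := by
      intro θ
      simp only [List.map_cons, List.prod_cons, dot_add, dot_neg, sub_eq_add_neg, ei_add]
      generalize (l.map fun j => tilt en a j θ).prod = q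
      simp only [tilt, ← hd]
      ring
    rw [integral_congr_ae (ae_of_all _ hpt), integral_div,
      integral_add ((hint _).const_mul _) ((hint _).const_mul _), integral_const_mul,
      integral_const_mul, ih, ih]
    simp only [List.map_cons, O_cons, List.length_cons, pow_succ, pot_add, pot_sub, neg_add_rev,
      neg_sub, Real.exp_add, Real.exp_sub, Real.exp_neg, ← hd]
    push_cast
    field_simp
    ring

variable [Fintype ι] (J : ι → ℝ)

/-- The shifted partition integral. -/
def shifted (φ : V → ℤ) : ℂ :=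
  ∫ θ, Complex.exp (∑ i, (J i : ℂ) * tilt en a i θ) * ei (dot φ θ) ∂law V

theorem tendsto_shifted (φ : V → ℤ) :
    Tendsto (fun n => ((Real.exp (-pot a φ) * ∑ k ∈ range n, (∑ l : Fin k → ι,
      (∏ j, J (l j)) * (O ((List.ofFn l).map en) φ / 2 ^ k)) / k.factorial : ℝ) : ℂ))
      atTop (𝓝 (shifted en a J φ)) := by
  set W : (V → Ang) → ℂ := fun θ => ∑ i, (J i : ℂ) * tilt en a i θ with hW
  have hWc : Continuous W := by rw [hW]; fun_prop
  have hpart : ∀ n, ((Real.exp (-pot a φ) * ∑ k ∈ range n, (∑ l : Fin k → ι,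
      (∏ j, J (l j)) * (O ((List.ofFn l).map en) φ / 2 ^ k)) / k.factorial : ℝ) : ℂ) =
      ∫ θ, (∑ k ∈ range n, W θ ^ k / k.factorial) * ei (dot φ θ) ∂law V := by
    intro n
    simp only [Finset.sum_mul, Finset.mul_sum]
    rw [integral_finsetSum _ fun k _ => integrable_complex
      (show Continuous fun θ => W θ ^ k / (k.factorial : ℂ) * ei (dot φ θ) by fun_prop),
      Complex.ofReal_sum]
    refine sum_congr rfl fun k _ => ?_
    simp only [div_mul_eq_mul_div, integral_div, ← mul_div_assoc, Complex.ofReal_div,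
      Complex.ofReal_natCast]
    congr 1
    have hk : ∀ θ, W θ ^ k * ei (dot φ θ) = ∑ l : Fin k → ι, ((∏ j, J (l j) : ℝ) : ℂ) *
        (((List.ofFn l).map fun i => tilt en a i θ).prod * ei (dot φ θ)) := fun θ => by
      rw [hW]
      simp only [Finset.sum_pow', Finset.sum_mul, Fintype.piFinset_univ]
      refine sum_congr rfl fun l _ => ?_
      rw [List.map_ofFn, List.prod_ofFn, Finset.prod_mul_distrib, Complex.ofReal_prod, mul_assoc]
      rfl
    rw [integral_congr_ae (ae_of_all _ hk), integral_finsetSum, Finset.mul_sum, Complex.ofReal_sum]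
    · refine sum_congr rfl fun l _ => ?_
      rw [integral_const_mul, integral_prod_tilt, List.length_ofFn]
      push_cast
      ring
    · exact fun l _ => integrable_complex (continuous_const.mul
        ((continuous_list_prod _ fun i _ => continuous_tilt en a i).mul (by fun_prop)))
  rw [funext hpart]
  refine tendsto_integral_of_dominated_convergence (fun θ => Real.exp ‖W θ‖)
    (fun n => Continuous.aestronglyMeasurable (by fun_prop))
    (integrable_of_continuous (by fun_prop)) (fun n => ae_of_all _ fun θ => ?_)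
    (ae_of_all _ fun θ => ?_)
  · rw [norm_mul, norm_ei, mul_one]
    refine (norm_sum_le _ _).trans ?_
    simp only [norm_div, norm_pow, Complex.norm_natCast]
    exact Real.sum_le_exp_of_nonneg (norm_nonneg _) n
  · refine Tendsto.mul_const _ ?_
    have := (NormedSpace.expSeries_div_hasSum_exp (𝔸 := ℂ) (W θ)).tendsto_sum_nat
    rw [← Complex.exp_eq_exp_ℂ] at this
    exact this

theorem shifted_eq (φ : V → ℤ) :
    shifted en a J φ = (Real.exp (-pot a φ) : ℂ) * shifted en (0 : V → ℝ) J φ := by
  refine tendsto_nhds_unique (tendsto_shifted en a J φ)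
    (((tendsto_shifted en (0 : V → ℝ) J φ).const_mul (Real.exp (-pot a φ) : ℂ)).congr fun n => ?_)
  simp [pot]

theorem shifted_zero_re (φ : V → ℤ) : (shifted en (0 : V → ℝ) J φ).re = Z en J φ := by
  have htilt : ∀ i θ, tilt en (0 : V → ℝ) i θ = (cs (dot (de (en i)) θ) : ℂ) := fun i θ => by
    apply Complex.ext <;> simp [tilt, pot, ei, show cs (-dot (de (en i)) θ) = cs (dot (de (en i)) θ)
      from cs_neg _, show sn (-dot (de (en i)) θ) = -sn (dot (de (en i)) θ) from Real.Angle.sin_neg _]
  have hexp : ∀ θ, Complex.exp (∑ i, (J i : ℂ) * tilt en (0 : V → ℝ) i θ) =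
      (Real.exp (energy en J θ) : ℂ) := fun θ => by
    simp [htilt, energy, Complex.ofReal_exp]
  rw [shifted]
  simp only [hexp]
  refine ((integral_re (integrable_complex (f := fun θ => (Real.exp (energy en J θ) : ℂ) *
    ei (dot φ θ)) (by fun_prop))).symm).trans ?_
  exact integral_congr_ae (ae_of_all _ fun θ => by simp [ei, -Complex.ofReal_exp])

/-- The shifted bound. -/
theorem G_le_shift (hJ : ∀ i, 0 ≤ J i) (x y : V) :
    G en J x y ≤ Real.exp (a x - a y + ∑ i, J i * (Real.cosh (a (en i).1 - a (en i).2) - 1)) := by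
  set φ := dl x - dl y with hφ
  set S := ∑ i, J i * (Real.cosh (a (en i).1 - a (en i).2) - 1)
  have hA : pot a φ = a x - a y := pot_de a (x, y)
  have h1 : ‖shifted en a J φ‖ ≤ Z en J 0 * Real.exp S := by
    refine (norm_integral_le_integral_norm _).trans ?_
    rw [Z, ← integral_mul_const]
    refine integral_mono (integrable_complex (by fun_prop)).norm
      (integrable_of_continuous (by fun_prop)) fun θ => ?_
    simp only [norm_mul, norm_ei, mul_one, Complex.norm_exp, dot_zero, cs_zero]
    rw [← Real.exp_add]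
    refine Real.exp_le_exp.2 ?_
    rw [Complex.re_sum, energy, ← Finset.sum_add_distrib]
    refine sum_le_sum fun i _ => ?_
    rw [Complex.re_ofReal_mul, tilt_re, pot_de, ← mul_add]
    refine mul_le_mul_of_nonneg_left ?_ (hJ i)
    nlinarith [Real.one_le_cosh (a (en i).1 - a (en i).2),
      (abs_le.1 (abs_cs_le (dot (de (en i)) θ))).2]
  have h2 : Real.exp (-pot a φ) * Z en J φ ≤ Z en J 0 * Real.exp S := by
    refine le_trans ?_ h1
    rw [← shifted_zero_re en J φ, ← Complex.re_ofReal_mul, ← shifted_eq]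
    exact Complex.re_le_norm _
  rw [G, div_le_iff₀ (Z_pos en J), ← hφ, Real.exp_add, ← hA]
  rw [Real.exp_neg, inv_mul_le_iff₀ (Real.exp_pos _)] at h2
  linarith

end

noncomputable section Lattice

/-- The logarithmic profile. -/
def prof (n : ℕ) (z : Site) : ℝ := Real.log ((max 1 (min n (nv z)) : ℕ) : ℝ)

lemma abs_prof_sub_le (n : ℕ) (z : Site) (d : Fin 2) {k : ℕ}
    (hk : k = min (nv z) (nv (z + step d))) :
    |prof n z - prof n (z + step d)| ≤ if 1 ≤ k ∧ k < n then 1 / (k : ℝ) else 0 := by
  obtain ⟨h1, h2⟩ := nv_step z d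
  set M := max (nv z) (nv (z + step d))
  have hsym : |prof n z - prof n (z + step d)| =
      |Real.log ((max 1 (min n M) : ℕ) : ℝ) - Real.log ((max 1 (min n k) : ℕ) : ℝ)| := by
    rcases le_total (nv z) (nv (z + step d)) with h | h
    · rw [hk, min_eq_left h, show M = nv (z + step d) from max_eq_right h, abs_sub_comm]; rfl
    · rw [hk, min_eq_right h, show M = nv z from max_eq_left h]; rfl
  rw [hsym]
  have hM : M ≤ k + 1 ∧ k ≤ M := by omega
  split_ifs with hc
  · obtain ⟨hk1, hkn⟩ := hc
    have e1 : max 1 (min n k) = k := by omega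
    have e2 : k ≤ max 1 (min n M) ∧ max 1 (min n M) ≤ k + 1 := by omega
    rw [e1]
    have hk0 : (0 : ℝ) < k := by exact_mod_cast hk1
    have hm0 : (k : ℝ) ≤ ((max 1 (min n M) : ℕ) : ℝ) := by exact_mod_cast e2.1
    rw [abs_of_nonneg (sub_nonneg.2 (Real.log_le_log hk0 hm0)),
      ← Real.log_div (hk0.trans_le hm0).ne' hk0.ne']
    refine (Real.log_le_sub_one_of_pos (div_pos (hk0.trans_le hm0) hk0)).trans ?_
    rw [div_sub_one hk0.ne']
    refine div_le_div_of_nonneg_right ?_ hk0.le
    have : ((max 1 (min n M) : ℕ) : ℝ) ≤ (k : ℝ) + 1 := by exact_mod_cast e2.2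
    linarith
  · rw [show max 1 (min n M) = max 1 (min n k) by omega, sub_self, abs_zero]

lemma cosh_sub_one_le {x : ℝ} (hx : |x| ≤ 1) : Real.cosh x - 1 ≤ x ^ 2 := by
  have h1 := Real.cosh_le_exp_half_sq x
  have h2 : x ^ 2 / 2 ≤ 1 := by nlinarith [abs_le.1 hx, sq_abs x]
  have h3 := Real.abs_exp_sub_one_le (x := x ^ 2 / 2) (by rw [abs_of_nonneg (by positivity)]; exact h2)
  rw [abs_of_nonneg (by positivity : (0 : ℝ) ≤ x ^ 2 / 2)] at h3
  linarith [le_abs_self (Real.exp (x ^ 2 / 2) - 1)]

/-- A power law bound, uniformly below `B`. -/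
theorem Cinf_le_rpow {b B : ℝ} (hb : 0 ≤ b) (hbB : b ≤ B) (hB : 1 ≤ B) {v : Site}
    (hv : 1 ≤ nv v) :
    Cinf b 0 v ≤ Real.exp 1 * (nv v : ℝ) ^ (-(1 / (256 * B))) := by
  set n := nv v with hn
  set lam : ℝ := 1 / (128 * B) with hlam
  have hlam0 : 0 < lam := by positivity
  have hlam1 : lam ≤ 1 := by
    rw [hlam, div_le_one (by positivity)]; linarith
  refine ciSup_le fun R => ?_
  by_cases h : (0 : Site) ∈ boxSet R ∧ v ∈ boxSet R
  swap
  · rw [corrBox_zero h]; positivity
  rw [corrBox_eq h.1 h.2]
  refine (G_le_shift (ends R) (fun z : Box R => lam * prof n z) _ (fun _ => hb) _ _).trans ?_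
  set kk : Bond R → ℕ := fun i => min (nv (i.1.1 : Site)) (nv ((i.1.1 : Site) + step i.1.2))
  have hterm : ∀ i : Bond R, b * (Real.cosh (lam * prof n ((ends R i).1 : Site) -
      lam * prof n ((ends R i).2 : Site)) - 1) ≤
      B * lam ^ 2 * (if 1 ≤ kk i ∧ kk i < n then 1 / (kk i : ℝ) ^ 2 else 0) := by
    intro i
    have hle := abs_prof_sub_le n (i.1.1 : Site) i.1.2 (k := kk i) rfl
    simp only [ends]
    rw [← mul_sub]
    set D := prof n (i.1.1 : Site) - prof n ((i.1.1 : Site) + step i.1.2)
    have hD1 : |D| ≤ 1 := hle.trans (by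
      split_ifs with hc
      · rw [div_le_one (by exact_mod_cast hc.1)]; exact_mod_cast hc.1
      · exact zero_le_one)
    have hx : |lam * D| ≤ 1 := by
      rw [abs_mul, abs_of_pos hlam0]
      exact mul_le_one₀ hlam1 (abs_nonneg _) hD1
    have hsq : D ^ 2 ≤ if 1 ≤ kk i ∧ kk i < n then 1 / (kk i : ℝ) ^ 2 else 0 := by
      rw [← sq_abs]
      refine (pow_le_pow_left₀ (abs_nonneg _) hle 2).trans (le_of_eq ?_)
      split_ifs <;> simp
    calc b * (Real.cosh (lam * D) - 1) ≤ B * (lam * D) ^ 2 :=
          mul_le_mul hbB (cosh_sub_one_le hx) (sub_nonneg.2 (Real.one_le_cosh _)) (by linarith)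
      _ ≤ _ := by
          rw [mul_pow, ← mul_assoc]
          exact mul_le_mul_of_nonneg_left hsq (by positivity)
  have hfib : ∀ k, ((Finset.univ : Finset (Bond R)).filter fun i => kk i = k).card ≤
      2 * (4 * (2 * k + 1) + 4 * (2 * (k + 1) + 1)) := fun k => by
    refine le_trans (card_le_card_of_injOn (t := (sphere k ∪ sphere (k + 1)) ×ˢ (univ : Finset (Fin 2)))
      (fun i : Bond R => ((i.1.1 : Site), i.1.2)) (fun i hi => ?_) fun i _ j _ e => ?_) ?_
    · simp only [coe_filter, mem_univ, true_and, Set.mem_ofPred_eq, kk] at hi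
      have := nv_step (i.1.1 : Site) i.1.2
      simp only [coe_product, coe_union, coe_univ, Set.mem_prod, Set.mem_union, mem_coe, mem_sphere,
        Set.mem_univ, and_true]
      omega
    · simp only [Prod.mk.injEq] at e
      exact Subtype.ext (Prod.ext (Subtype.ext e.1) e.2)
    · rw [card_product, card_univ, Fintype.card_fin, mul_comm]
      exact Nat.mul_le_mul_left 2 ((card_union_le _ _).trans
        (add_le_add (card_sphere_le k) (card_sphere_le (k + 1))))
  have hsum : ∑ i : Bond R, (if 1 ≤ kk i ∧ kk i < n then 1 / (kk i : ℝ) ^ 2 else 0) ≤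
      64 * (1 + Real.log n) := by
    rw [← Finset.sum_filter, ← Finset.sum_fiberwise_of_maps_to (t := Finset.Icc 1 n) (g := kk)
      fun i hi => by simp only [mem_filter] at hi; rw [mem_Icc]; omega]
    calc ∑ k ∈ Finset.Icc 1 n, _ ≤ ∑ k ∈ Finset.Icc 1 n, 64 * ((k : ℝ))⁻¹ := by
          refine sum_le_sum fun k hk => ?_
          rw [mem_Icc] at hk
          rw [sum_congr rfl fun i hi => by rw [(mem_filter.1 hi).2], sum_const, nsmul_eq_mul]
          have hk0 : (1 : ℝ) ≤ k := by exact_mod_cast hk.1
          refine (mul_le_mul_of_nonneg_right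
            (Nat.cast_le.2 (le_trans (card_le_card fun i hi => ?_) (hfib k))) (by positivity)).trans ?_
          · rw [mem_filter] at hi ⊢
            exact ⟨mem_univ _, hi.2⟩
          · push_cast
            rw [mul_one_div, div_le_iff₀ (by positivity)]
            field_simp
            nlinarith
      _ ≤ 64 * (1 + Real.log n) := by
          rw [← mul_sum]
          refine mul_le_mul_of_nonneg_left ?_ (by norm_num)
          have hh := harmonic_le_one_add_log n
          rw [harmonic_eq_sum_Icc] at hh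
          push_cast at hh
          exact hh
  have hS : ∑ i : Bond R, b * (Real.cosh (lam * prof n ((ends R i).1 : Site) -
      lam * prof n ((ends R i).2 : Site)) - 1) ≤ B * lam ^ 2 * (64 * (1 + Real.log n)) := by
    refine (sum_le_sum fun i _ => hterm i).trans ?_
    rw [← mul_sum]
    exact mul_le_mul_of_nonneg_left hsum (by positivity)
  have hp0 : prof n (0 : Site) = 0 := by simp [prof, nv]
  have hpv : prof n v = Real.log n := by
    simp [prof, ← hn, hv]
  simp only [hp0, hpv, mul_zero, zero_sub]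
  rw [Real.rpow_def_of_pos (by exact_mod_cast hv), ← Real.exp_add]
  refine Real.exp_le_exp.2 ((add_le_add le_rfl hS).trans ?_)
  rw [show B * lam ^ 2 * (64 * (1 + Real.log n)) = lam / 2 * (1 + Real.log n) by
    rw [hlam]; field_simp; ring]
  have hL : 0 ≤ Real.log n := Real.log_natCast_nonneg n
  rw [show (1 : ℝ) / (256 * B) = lam / 2 by rw [hlam]; field_simp; ring]
  nlinarith

end Lattice

end Vale.Agent.P159
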