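import Vale.Agent.P159.MBS

/-!
# P159: the mass near the threshold

Near the threshold the mass is at most a constant times `(bc - b) ^ a` with `a > 1/2`. The site `v`
that nearly maximises `Cinf b 0 v * nv v ^ p` carries the argument: correlations at comparable
distances are comparable with its own, so lowering the inverse temperature by a multiple of the
inverse susceptibility costs at most half of `Cinf b 0 v`.
-/

namespace Vale.Agent.P159

open Filter Finset
open scoped Classical Topology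

noncomputable section

/-- The logarithmic factor is below any negative power. -/
lemma log_factor_le {μ s : ℝ} (hμ : 0 < μ) (hμ1 : μ ≤ 1) (hs : 0 < s) :
    1 + Real.log (1 / μ) ≤ (1 + 1 / s) * μ ^ (-s) := by
  have h1 : (1 : ℝ) ≤ μ ^ (-s) := Real.one_le_rpow_of_pos_of_le_one_of_nonpos hμ hμ1 (by linarith)
  have h2 := Real.log_le_rpow_div (one_div_nonneg.2 hμ.le) hs
  rw [show (1 / μ) ^ s = μ ^ (-s) by rw [one_div, Real.inv_rpow hμ.le, Real.rpow_neg hμ.le]] at h2
  rw [add_mul, one_mul, div_mul_eq_mul_div, one_mul]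
  linarith

lemma self_le_exp (x : ℝ) : x ≤ Real.exp x := by linarith [Real.add_one_le_exp x]

variable {b : ℝ}

/-- The susceptibility is at most a power of the correlation length. -/
theorem exists_chi_le {B : ℝ} (hB : 1 ≤ B) :
    ∃ K : ℝ, 0 < K ∧ ∀ b, 0 < b → b ≤ B → 0 < mass b → mass b ≤ 1 → ∀ (c : Site) (R : ℕ),
      ∑ w ∈ boxSet R, Cinf b c w ≤ K * mass b ^ (-(2 - 1 / (512 * B))) := by
  set η : ℝ := 1 / (256 * B) with hη
  have hη0 : 0 < η := by positivity
  have hη1 : η ≤ 1 := by rw [hη, div_le_one (by positivity)]; linarith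
  set q : ℝ := 2 - 1 / (512 * B)
  have hq : q = 2 - η / 2 := by simp only [q, hη]; ring
  set s : ℝ := η / 4
  have hs : 0 < s := by positivity
  refine ⟨4 + 12 * Real.exp 1 * (5 * (1 + 1 / s)) ^ (2 : ℕ) + 240, by positivity,
    fun b hb hbB hm hm1 c R => ?_⟩
  set μ := mass b
  set R' := R + nv c
  have hshift : ∑ w ∈ boxSet R, Cinf b c w ≤ ∑ z ∈ boxSet R', Cinf b 0 z := by
    simp only [Cinf_sub hb.le c]
    rw [← sum_image (f := fun z => Cinf b 0 z) (fun x _ y _ h => sub_left_inj.1 h)]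
    refine sum_le_sum_of_subset_of_nonneg (fun z hz => ?_) fun z _ _ => Cinf_nonneg hb.le _ _
    obtain ⟨w, hw, rfl⟩ := mem_image.1 hz
    rw [mem_boxSet] at hw ⊢
    have := nv_add_le w (-c)
    rw [← sub_eq_add_neg, nv_neg] at this
    simp only [R']
    omega
  refine hshift.trans ?_
  set L := 1 + Real.log (1 / μ) with hL
  have hL1 : 1 ≤ L := by
    have : 0 ≤ Real.log (1 / μ) := Real.log_nonneg (by rw [le_div_iff₀ hm]; linarith)
    linarith
  set N := ⌈4 * L / μ⌉₊
  have hN1 : 4 * L / μ ≤ N := Nat.le_ceil _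
  have hN2 : (N : ℝ) ≤ 5 * L / μ := by
    have h := (Nat.ceil_lt_add_one (show 0 ≤ 4 * L / μ by positivity)).le
    have h1 : 1 ≤ L / μ := by rw [le_div_iff₀ hm]; linarith
    rw [show 5 * L / μ = 4 * L / μ + L / μ by ring]
    simp only [N]
    linarith
  set F : ℕ → ℝ := fun k => if k ≤ N then 12 * Real.exp 1 * (k : ℝ) ^ (1 - η)
    else 48 / μ * Real.exp (-μ * N / 2) * Real.exp (-μ * k / 4)
  have hfib : ∀ k ∈ range (R' + 1), ∑ z ∈ (boxSet R').filter (fun z => nv z = k), Cinf b 0 z ≤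
      (if k = 0 then 4 else F k) := by
    intro k _
    have hcard : (((boxSet R').filter fun z => nv z = k).card : ℝ) ≤ 4 * (2 * k + 1) := by
      exact_mod_cast le_trans (card_le_card fun z hz => mem_sphere.2 (mem_filter.1 hz).2)
        (card_sphere_le k)
    by_cases hk : k = 0
    · subst hk
      rw [if_pos rfl]
      refine (sum_le_card_nsmul _ _ 1 fun z _ => Cinf_le_one hb.le 0 z).trans ?_
      rw [nsmul_eq_mul, mul_one]
      simpa using hcard
    rw [if_neg hk]
    have hk1 : (1 : ℝ) ≤ k := by exact_mod_cast Nat.pos_of_ne_zero hk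
    have hc12 : (((boxSet R').filter fun z => nv z = k).card : ℝ) ≤ 12 * k := by linarith
    simp only [F]
    split_ifs with hkN
    · calc ∑ z ∈ (boxSet R').filter (fun z => nv z = k), Cinf b 0 z
          ≤ (((boxSet R').filter fun z => nv z = k).card : ℝ) * (Real.exp 1 * (k : ℝ) ^ (-η)) := by
            rw [← nsmul_eq_mul]
            refine sum_le_card_nsmul _ _ _ fun z hz => ?_
            have hz' := (mem_filter.1 hz).2
            have := Cinf_le_rpow hb.le hbB hB (v := z) (by omega)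
            rwa [hz'] at this
        _ ≤ 12 * k * (Real.exp 1 * (k : ℝ) ^ (-η)) := mul_le_mul_of_nonneg_right hc12 (by positivity)
        _ = _ := by
            rw [show (1 : ℝ) - η = 1 + -η by ring, Real.rpow_add (by linarith), Real.rpow_one]
            ring
    · calc ∑ z ∈ (boxSet R').filter (fun z => nv z = k), Cinf b 0 z
          ≤ (((boxSet R').filter fun z => nv z = k).card : ℝ) * Real.exp (-μ * k) := by
            rw [← nsmul_eq_mul]
            refine sum_le_card_nsmul _ _ _ fun z hz => ?_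
            have := Cinf_le_exp hb z
            rwa [(mem_filter.1 hz).2] at this
        _ ≤ 12 * k * Real.exp (-μ * k) := mul_le_mul_of_nonneg_right hc12 (Real.exp_nonneg _)
        _ ≤ 48 / μ * Real.exp (μ * k / 4) * Real.exp (-μ * k) := by
            refine mul_le_mul_of_nonneg_right ?_ (Real.exp_nonneg _)
            rw [div_mul_eq_mul_div, le_div_iff₀ hm]
            nlinarith [self_le_exp (μ * k / 4)]
        _ ≤ _ := by
            rw [mul_assoc, mul_assoc, ← Real.exp_add, ← Real.exp_add]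
            refine mul_le_mul_of_nonneg_left (Real.exp_le_exp.2 ?_) (by positivity)
            have : (N : ℝ) ≤ k := by exact_mod_cast (not_le.1 hkN).le
            nlinarith
  rw [← sum_fiberwise_of_maps_to (t := range (R' + 1)) (g := nv)
    fun z hz => mem_range.2 (Nat.lt_succ_of_le (mem_boxSet.1 hz))]
  refine (sum_le_sum hfib).trans ?_
  rw [sum_ite, sum_const, nsmul_eq_mul]
  have h0 : ((((range (R' + 1)).filter fun k => k = 0).card : ℕ) : ℝ) * 4 ≤ 4 := by
    have : ((range (R' + 1)).filter fun k => k = 0).card ≤ 1 :=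
      card_le_one.2 fun x hx y hy => (mem_filter.1 hx).2.trans (mem_filter.1 hy).2.symm
    have : ((((range (R' + 1)).filter fun k => k = 0).card : ℕ) : ℝ) ≤ 1 := by exact_mod_cast this
    linarith
  set Hd := ((range (R' + 1)).filter fun k => ¬ k = 0).filter fun k => k ≤ N
  set Tl := ((range (R' + 1)).filter fun k => ¬ k = 0).filter fun k => ¬ k ≤ N
  have hhead : ∑ k ∈ Hd, F k ≤
      12 * Real.exp 1 * (5 * (1 + 1 / s)) ^ (2 : ℕ) * μ ^ (-q) := by
    have hb1 : ∀ k ∈ Hd, F k ≤ 12 * Real.exp 1 * (N : ℝ) ^ (1 - η) := fun k hk => by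
      have hkN := (mem_filter.1 hk).2
      simp only [F, if_pos hkN]
      exact mul_le_mul_of_nonneg_left (Real.rpow_le_rpow (Nat.cast_nonneg k)
        (Nat.cast_le.2 hkN) (by linarith)) (by positivity)
    have hcard : Hd.card ≤ N := by
      refine (card_le_card (t := Icc 1 N) fun k hk => ?_).trans (by simp)
      simp only [Hd, mem_filter] at hk
      exact mem_Icc.2 ⟨Nat.pos_of_ne_zero hk.1.2, hk.2⟩
    refine (sum_le_card_nsmul _ _ _ hb1).trans ?_
    rw [nsmul_eq_mul]
    have hN0 : (0 : ℝ) < N := lt_of_lt_of_le (by positivity) hN1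
    calc (Hd.card : ℝ) * (12 * Real.exp 1 * (N : ℝ) ^ (1 - η))
        ≤ N * (12 * Real.exp 1 * (N : ℝ) ^ (1 - η)) :=
          mul_le_mul_of_nonneg_right (Nat.cast_le.2 hcard) (by positivity)
      _ = 12 * Real.exp 1 * (N : ℝ) ^ (2 - η) := by
          rw [show (2 : ℝ) - η = 1 + (1 - η) by ring, Real.rpow_add hN0, Real.rpow_one]; ring
      _ ≤ _ := by
          rw [mul_assoc (12 * Real.exp 1)]
          refine mul_le_mul_of_nonneg_left ?_ (by positivity)
          have hN3 : (N : ℝ) ≤ 5 * (1 + 1 / s) * μ ^ (-(1 + s)) := by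
            refine hN2.trans ?_
            rw [show -(1 + s) = -s + -1 by ring, Real.rpow_add hm, Real.rpow_neg_one,
              div_eq_mul_inv, ← mul_assoc, mul_assoc 5 (1 + 1 / s)]
            exact mul_le_mul_of_nonneg_right (mul_le_mul_of_nonneg_left (log_factor_le hm hm1 hs)
              (by norm_num)) (by positivity)
          refine (Real.rpow_le_rpow (Nat.cast_nonneg N) hN3 (by linarith)).trans ?_
          rw [Real.mul_rpow (by positivity) (by positivity), ← Real.rpow_mul hm.le]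
          refine mul_le_mul ?_ ?_ (by positivity) (by positivity)
          · rw [← Real.rpow_natCast]
            refine Real.rpow_le_rpow_of_exponent_le ?_ (by push_cast; linarith)
            have : (0 : ℝ) ≤ 1 / s := by positivity
            linarith
          · refine Real.rpow_le_rpow_of_exponent_ge hm hm1 ?_
            rw [hq]
            simp only [s]
            nlinarith
  have htail : ∑ k ∈ Tl, F k ≤ 240 := by
    have heq : ∀ k ∈ Tl, F k = 48 / μ * Real.exp (-μ * N / 2) * Real.exp (-μ / 4) ^ k :=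
      fun k hk => by
        rw [← Real.exp_nat_mul]
        simp only [F, if_neg (mem_filter.1 hk).2]
        congr 2; ring
    rw [sum_congr rfl heq, ← mul_sum]
    have hr1 : Real.exp (-μ / 4) < 1 := Real.exp_lt_one_iff.2 (by linarith)
    have hgeo : ∑ k ∈ Tl, Real.exp (-μ / 4) ^ k ≤ 1 + 4 / μ := by
      refine ((summable_geometric_of_lt_one (Real.exp_nonneg _) hr1).sum_le_tsum _
        (fun k _ => by positivity)).trans ?_
      rw [tsum_geometric_of_lt_one (Real.exp_nonneg _) hr1]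
      refine inv_le_of_inv_le₀ (by positivity) ?_
      rw [show -μ / 4 = -(μ / 4) by ring, Real.exp_neg,
        show (1 + 4 / μ)⁻¹ = 1 - (μ / 4 + 1)⁻¹ by field_simp; ring]
      have := inv_anti₀ (by positivity) (Real.add_one_le_exp (μ / 4))
      linarith
    have hexp : Real.exp (-μ * N / 2) ≤ μ ^ 2 := by
      have h1 : 4 * L ≤ μ * N := by
        rw [div_le_iff₀ hm] at hN1; linarith
      have h2 : μ ^ 2 = Real.exp (2 * Real.log μ) := by
        rw [← Real.exp_log (pow_pos hm 2), Real.log_pow]; norm_num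
      rw [h2]
      refine Real.exp_le_exp.2 ?_
      have : Real.log (1 / μ) = -Real.log μ := by rw [one_div, Real.log_inv]
      rw [hL, this] at h1
      linarith
    calc 48 / μ * Real.exp (-μ * N / 2) * ∑ k ∈ Tl, Real.exp (-μ / 4) ^ k
        ≤ 48 / μ * μ ^ 2 * (1 + 4 / μ) :=
          mul_le_mul (mul_le_mul_of_nonneg_left hexp (by positivity)) hgeo
            (sum_nonneg fun k _ => by positivity) (by positivity)
      _ ≤ 240 := by field_simp; nlinarith
  have hpow : 1 ≤ μ ^ (-q) :=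
    Real.one_le_rpow_of_pos_of_le_one_of_nonpos hm hm1 (by rw [hq]; linarith)
  rw [← sum_filter_add_sum_filter_not ((range (R' + 1)).filter fun k => ¬ k = 0) (fun k => k ≤ N)]
  nlinarith

/-- A site whose correlation controls those at comparable distances. -/
theorem exists_site {p : ℕ} (hp : 1 ≤ p) :
    ∃ c K : ℝ, 0 < c ∧ 0 < K ∧ ∀ b, 0 < b → 0 < mass b → mass b ≤ 1 → ∃ v : Site,
      0 < Cinf b 0 v ∧
      (∀ w : Site, nv v ≤ 4 * nv w → Cinf b 0 w ≤ 2 * 4 ^ p * Cinf b 0 v) ∧
      c * mass b ^ (-(1 - 1 / (p : ℝ))) ≤ nv v ∧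
      -Real.log (Cinf b 0 v / 2) ≤ K * (1 + Real.log (1 / mass b)) := by
  set G0 : ℝ := 1 / (24 * Real.exp 1 * 2 ^ (p - 1)) with hG0
  have hG : 0 < G0 := by positivity
  have hp0 : (0 : ℝ) < p := by exact_mod_cast hp
  refine ⟨G0 ^ (1 / (p : ℝ)), 2 * p + 2 * p * |Real.log (2 * p)| + 2 * |Real.log G0| + 1,
    by positivity, by positivity, fun b hb hm hm1 => ?_⟩
  set μ := mass b
  set g : Site → ℝ := fun z => Cinf b 0 z * (nv z : ℝ) ^ p with hg
  have hbdd : BddAbove (Set.range g) := by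
    refine ⟨((p : ℝ) / μ) ^ p, ?_⟩
    rintro _ ⟨z, rfl⟩
    refine (mul_le_mul_of_nonneg_right (Cinf_le_exp hb z) (by positivity)).trans ?_
    rw [neg_mul, Real.exp_neg, inv_mul_le_iff₀ (Real.exp_pos _)]
    calc (nv z : ℝ) ^ p = ((p : ℝ) / μ) ^ p * (μ * nv z / p) ^ p := by
          rw [← mul_pow]; congr 1; field_simp
      _ ≤ ((p : ℝ) / μ) ^ p * Real.exp (μ * nv z / p) ^ p :=
          mul_le_mul_of_nonneg_left (pow_le_pow_left₀ (by positivity) (self_le_exp _) p) (by positivity)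
      _ = _ := by rw [← Real.exp_nat_mul, mul_comm]; congr 2; field_simp; simp only [μ]; ring
  -- a site with a large weight at the scale of the correlation length
  set r := ⌊1 / μ⌋₊
  have hr1 : 1 ≤ r := Nat.le_floor (by rw [Nat.cast_one, le_div_iff₀ hm]; linarith)
  have hrle : (r : ℝ) ≤ 1 / μ := Nat.floor_le (by positivity)
  have hrge : 1 / (2 * μ) ≤ r := by
    have h1 := Nat.lt_floor_add_one (1 / μ)
    have h2 : (1 : ℝ) ≤ r := by exact_mod_cast hr1
    rw [show 1 / (2 * μ) = 1 / μ / 2 by ring]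
    linarith
  have hphi : Real.exp (-1) ≤ phi r b := by
    refine le_trans (Real.exp_le_exp.2 ?_) (exp_le_phi hb hr1)
    rw [le_div_iff₀ hm] at hrle
    nlinarith
  obtain ⟨u, hu, hule⟩ := exists_le_of_sum_le
    (f := fun _ => Real.exp (-1) / (sphere r).card) (g := fun u => corrBox r b 0 u)
    ⟨_, show (((r : ℕ) : ℤ), (0 : ℤ)) ∈ sphere r from mem_sphere.2 (by simp [nv])⟩ (by
      have hne : ((sphere r).card : ℝ) ≠ 0 := by
        exact_mod_cast (card_pos.2
          ⟨_, show (((r : ℕ) : ℤ), (0 : ℤ)) ∈ sphere r from mem_sphere.2 (by simp [nv])⟩).ne'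
      rw [sum_const, nsmul_eq_mul, mul_div_cancel₀ _ hne]
      exact hphi)
  have hgu : 2 * G0 / μ ^ (p - 1) ≤ g u := by
    have h1 : Real.exp (-1) / (12 * r) ≤ Cinf b 0 u := by
      refine le_trans ?_ (hule.trans (corrBox_le_Cinf hb.le r 0 u))
      refine div_le_div_of_nonneg_left (Real.exp_nonneg _)
        (by exact_mod_cast card_pos.2 ⟨u, hu⟩) ?_
      have h4 := card_sphere_le r
      exact_mod_cast h4.trans (by omega)
    simp only [hg, mem_sphere.1 hu]
    refine le_trans ?_ (mul_le_mul_of_nonneg_right h1 (by positivity))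
    have hr0 : (r : ℝ) ≠ 0 := Nat.cast_ne_zero.2 (by omega)
    rw [show (r : ℝ) ^ p = r * (r : ℝ) ^ (p - 1) by rw [← pow_succ']; congr 1; omega,
      show Real.exp (-1) / (12 * r) * (r * (r : ℝ) ^ (p - 1)) =
        Real.exp (-1) / 12 * (r : ℝ) ^ (p - 1) by field_simp]
    calc 2 * G0 / μ ^ (p - 1) = Real.exp (-1) / 12 * (1 / (2 * μ)) ^ (p - 1) := by
          rw [hG0, Real.exp_neg, div_pow, one_pow, mul_pow]; field_simp; ring
      _ ≤ _ := mul_le_mul_of_nonneg_left (pow_le_pow_left₀ (by positivity) hrge _) (by positivity)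
  have hgu0 : 0 < g u := lt_of_lt_of_le (by positivity) hgu
  have hsup : g u ≤ ⨆ z, g z := le_ciSup hbdd u
  obtain ⟨v, hv⟩ := exists_lt_of_lt_ciSup (show (⨆ z, g z) / 2 < ⨆ z, g z by linarith)
  have hgv : G0 / μ ^ (p - 1) < g v := by
    rw [show 2 * G0 / μ ^ (p - 1) = 2 * (G0 / μ ^ (p - 1)) by ring] at hgu
    linarith
  have hgv0 : 0 < g v := lt_trans (by positivity) hgv
  have hn0 : 1 ≤ nv v := by
    rcases Nat.eq_zero_or_pos (nv v) with h | h
    · simp [hg, h, show p ≠ 0 by omega] at hgv0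
    · exact h
  have hn : (1 : ℝ) ≤ nv v := by exact_mod_cast hn0
  have hC : 0 < Cinf b 0 v := pos_of_mul_pos_left hgv0 (by positivity)
  refine ⟨v, hC, fun w hw => ?_, ?_, ?_⟩
  · have hw0 : (0 : ℝ) < nv w := by exact_mod_cast (show 0 < nv w by omega)
    have h1 : g w ≤ 2 * g v := by linarith [le_ciSup hbdd w]
    have h2 : (nv v : ℝ) ^ p ≤ 4 ^ p * (nv w : ℝ) ^ p := by
      rw [← mul_pow]
      exact pow_le_pow_left₀ (by positivity) (by exact_mod_cast hw) p
    simp only [hg] at h1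
    refine le_of_mul_le_mul_right (h1.trans ?_) (pow_pos hw0 p)
    nlinarith
  · have h1 : G0 / μ ^ (p - 1) ≤ (nv v : ℝ) ^ p :=
      hgv.le.trans (mul_le_of_le_one_left (by positivity) (Cinf_le_one hb.le 0 v))
    have h2 := Real.rpow_le_rpow (by positivity) h1 (by positivity : (0 : ℝ) ≤ 1 / p)
    rw [Real.div_rpow hG.le (by positivity), ← Real.rpow_natCast, ← Real.rpow_mul hm.le,
      ← Real.rpow_natCast (nv v : ℝ), ← Real.rpow_mul (by linarith), mul_one_div_cancel hp0.ne',
      Real.rpow_one, div_eq_mul_inv, ← Real.rpow_neg hm.le] at h2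
    refine le_of_eq_of_le ?_ h2
    congr 2
    rw [Nat.cast_sub hp]; field_simp; ring
  · set n : ℝ := ((nv v : ℕ) : ℝ)
    have hμp : μ ^ (p - 1) ≤ 1 := pow_le_one₀ hm.le hm1
    have hlow : G0 / n ^ p ≤ Cinf b 0 v := by
      rw [div_le_iff₀ (by positivity)]
      have h3 : G0 ≤ G0 / μ ^ (p - 1) := le_div_self hG.le (by positivity) hμp
      simp only [hg] at hgv
      linarith
    have hlogC : -Real.log (Cinf b 0 v) ≤ p * Real.log n - Real.log G0 := by
      have h3 := Real.log_le_log (by positivity) hlow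
      rw [Real.log_div hG.ne' (by positivity), Real.log_pow] at h3
      linarith
    have hdec : μ * n ≤ -Real.log (Cinf b 0 v) := by
      have h3 := Real.log_le_log hC (Cinf_le_exp hb v)
      rw [Real.log_exp] at h3
      linarith
    have hlogn : Real.log n ≤ Real.log (2 * p) + Real.log (1 / μ) + μ * n / (2 * p) - 1 := by
      have h3 := Real.log_le_sub_one_of_pos (show 0 < μ * n / (2 * p) by positivity)
      rw [Real.log_div (by positivity) (by positivity), Real.log_mul hm.ne' (by positivity)] at h3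
      rw [one_div, Real.log_inv]
      linarith
    have hL : 0 ≤ Real.log (1 / μ) := Real.log_nonneg (by rw [le_div_iff₀ hm]; linarith)
    have hlog2 : Real.log 2 ≤ 1 := by
      have := Real.log_le_sub_one_of_pos (zero_lt_two' ℝ)
      linarith
    rw [Real.log_div hC.ne' two_ne_zero]
    have hpn : (p : ℝ) * (μ * n / (2 * p)) = μ * n / 2 := by field_simp
    have h5 := mul_le_mul_of_nonneg_left hlogn hp0.le
    rw [mul_sub, mul_add, mul_add, hpn, mul_one] at h5
    have h6 := mul_le_mul_of_nonneg_left (le_abs_self (Real.log (2 * p))) hp0.le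
    have h7 : 0 ≤ (2 * p * |Real.log (2 * p)| + 2 * |Real.log G0| + 1) * Real.log (1 / μ) :=
      mul_nonneg (by positivity) hL
    linarith [neg_abs_le (Real.log G0)]

/-- The step: lowering `b` by a multiple of `mass ^ q` keeps the mass small. -/
theorem exists_step {B : ℝ} (hB : 1 ≤ B) {p : ℕ} (hp : 2 ≤ p) :
    ∃ c K μ₀ : ℝ, 0 < c ∧ 0 < K ∧ 0 < μ₀ ∧ μ₀ ≤ 1 ∧ ∀ x y, 0 < x → x ≤ y → y ≤ B → 0 < mass y →
      mass y ≤ μ₀ → y - x ≤ c * mass y ^ (2 - 1 / (512 * B)) →
      mass x ≤ K * mass y ^ (1 - 2 / (p : ℝ)) := by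
  obtain ⟨Kχ, hKχ, hchi⟩ := exists_chi_le hB
  obtain ⟨c₁, K₁, hc₁, hK₁, hsite⟩ := exists_site (le_trans one_le_two hp)
  set a₁ : ℝ := 1 - 1 / (p : ℝ) with ha₁
  have hp2 : (2 : ℝ) ≤ p := by exact_mod_cast hp
  have ha0 : 0 < a₁ := by
    rw [ha₁, sub_pos, div_lt_one (by linarith)]; linarith
  refine ⟨1 / (16 * 4 ^ p * Kχ), K₁ * (1 + (p : ℝ)) / c₁,
    min 1 ((c₁ / 2) ^ (1 / a₁)), by positivity, by positivity, by positivity, min_le_left _ _,
    fun x y hx hxy hyB hm hm0 hgap => ?_⟩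
  set μ := mass y
  have hm1 : μ ≤ 1 := hm0.trans (min_le_left _ _)
  have hy : 0 < y := hx.trans_le hxy
  obtain ⟨v, hC, hA, hnlow, hlog⟩ := hsite y hy hm hm1
  set A : ℝ := 2 * 4 ^ p * Cinf y 0 v
  have hn2 : (2 : ℝ) ≤ nv v := by
    refine le_trans ?_ hnlow
    have h1 := Real.rpow_le_rpow hm.le (hm0.trans (min_le_right _ _)) ha0.le
    rw [← Real.rpow_mul (by positivity), one_div_mul_cancel ha0.ne', Real.rpow_one] at h1
    rw [Real.rpow_neg hm.le, ← div_eq_mul_inv, le_div_iff₀ (by positivity)]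
    linarith
  have hn2' : 2 ≤ nv v := by exact_mod_cast hn2
  set X : ℝ := Kχ * μ ^ (-(2 - 1 / (512 * B)))
  have hstep : Cinf y 0 v - Cinf x 0 v ≤ (y - x) * (4 * A * X) := by
    refine le_of_tendsto_of_tendsto ((tendsto_corrBox hy.le 0 v).sub (tendsto_corrBox hx.le 0 v))
      tendsto_const_nhds (eventually_atTop.2 ⟨nv v, fun R hR => ?_⟩)
    have h0 := zero_mem_boxSet R
    have hvR : v ∈ boxSet R := mem_boxSet.2 hR
    simp only [corrBox_eq h0 hvR]
    refine (G_sub_le (ends R) (fun _ => hx.le) (fun _ => hxy) _ _).trans ?_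
    rw [← mul_sum]
    refine mul_le_mul_of_nonneg_left ?_ (sub_nonneg.2 hxy)
    set c0 : Site → ℝ := fun z => Cinf y 0 z
    set cv : Site → ℝ := fun z => Cinf y v z
    have hb1 : ∀ (z : Site) (hz : z ∈ boxSet R),
        G (ends R) (fun _ : Bond R => y) ⟨0, h0⟩ ⟨z, hz⟩ ≤ c0 z := fun z hz => by
      rw [← Gb, ← corrBox_eq h0 hz]; exact corrBox_le_Cinf hy.le R 0 z
    have hb2 : ∀ (z : Site) (hz : z ∈ boxSet R),
        G (ends R) (fun _ : Bond R => y) ⟨z, hz⟩ ⟨v, hvR⟩ ≤ cv z := fun z hz => by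
      rw [← Gb, ← corrBox_eq hz hvR, corrBox_comm]; exact corrBox_le_Cinf hy.le R v z
    have hA0 : 0 ≤ A := by positivity
    have hprod : ∀ z z' : Site, nv z ≤ nv z' + 1 → nv z' ≤ nv z + 1 →
        c0 z * cv z' ≤ A * (c0 z + cv z') := by
      intro z z' h1 h2
      have e1 : 0 ≤ c0 z := Cinf_nonneg hy.le _ _
      have e2 : 0 ≤ cv z' := Cinf_nonneg hy.le _ _
      by_cases hz : nv v ≤ 4 * nv z
      · calc c0 z * cv z' ≤ A * cv z' := mul_le_mul_of_nonneg_right (hA z hz) e2
          _ ≤ _ := by nlinarith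
      · have hz' : nv v ≤ 4 * nv (z' - v) := by
          have h3 := nv_add_le (v - z') z'
          rw [sub_add_cancel, ← nv_neg (v - z'), neg_sub] at h3
          omega
        have hle : cv z' ≤ A := by
          simp only [cv, Cinf_sub hy.le v z']; exact hA _ hz'
        calc c0 z * cv z' ≤ c0 z * A := mul_le_mul_of_nonneg_left hle e1
          _ ≤ _ := by nlinarith
    have hsumC : ∀ (c : Site → ℝ), (∀ z, 0 ≤ c z) → (∑ z ∈ boxSet R, c z) ≤ X →
        (∑ i : Bond R, c ((ends R i).1 : Site)) ≤ 2 * X ∧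
          (∑ i : Bond R, c ((ends R i).2 : Site)) ≤ 2 * X := by
      intro c hc hcX
      constructor
      · calc ∑ i : Bond R, c ((ends R i).1 : Site)
            = ∑ p ∈ (univ : Finset (Bond R)).image (fun i => ((i.1.1 : Site), i.1.2)), c p.1 := by
              rw [sum_image fun i _ j _ e => ?_]
              · rfl
              · simp only [Prod.mk.injEq] at e
                exact Subtype.ext (Prod.ext (Subtype.ext e.1) e.2)
          _ ≤ ∑ p ∈ boxSet R ×ˢ (univ : Finset (Fin 2)), c p.1 :=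
              sum_le_sum_of_subset_of_nonneg (fun p hp => by
                obtain ⟨i, -, rfl⟩ := mem_image.1 hp
                exact mem_product.2 ⟨i.1.1.2, mem_univ _⟩) fun p _ _ => hc _
          _ ≤ 2 * X := by rw [sum_product]; simp [← mul_sum]; linarith
      · calc ∑ i : Bond R, c ((ends R i).2 : Site)
            = ∑ p ∈ (univ : Finset (Bond R)).image (fun i => ((i.1.1 : Site) + step i.1.2, i.1.2)),
                c p.1 := by
              rw [sum_image fun i _ j _ e => ?_]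
              · rfl
              · simp only [Prod.mk.injEq] at e
                obtain ⟨e1, e2⟩ := e
                rw [e2, add_left_inj] at e1
                exact Subtype.ext (Prod.ext (Subtype.ext e1) e2)
          _ ≤ ∑ p ∈ boxSet R ×ˢ (univ : Finset (Fin 2)), c p.1 :=
              sum_le_sum_of_subset_of_nonneg (fun p hp => by
                obtain ⟨i, -, rfl⟩ := mem_image.1 hp
                exact mem_product.2 ⟨i.2, mem_univ _⟩) fun p _ _ => hc _
          _ ≤ 2 * X := by rw [sum_product]; simp [← mul_sum]; linarith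
    have s0 := hsumC c0 (fun z => Cinf_nonneg hy.le _ _) (hchi y hy hyB hm hm1 0 R)
    have sv := hsumC cv (fun z => Cinf_nonneg hy.le _ _) (hchi y hy hyB hm hm1 v R)
    calc ∑ i : Bond R, _ ≤ ∑ i : Bond R, A / 2 * (c0 ((ends R i).1 : Site) +
          cv ((ends R i).2 : Site) + (c0 ((ends R i).2 : Site) + cv ((ends R i).1 : Site))) := by
          refine sum_le_sum fun i _ => ?_
          have hn := fun p q => G_nonneg (ends R) (J := fun _ : Bond R => y) (fun _ => hy.le) p q
          have hs := nv_step (i.1.1 : Site) i.1.2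
          have t1 := mul_le_mul (hb1 _ (ends R i).1.2) (hb2 _ (ends R i).2.2) (hn _ _)
            (Cinf_nonneg hy.le _ _)
          have t2 := mul_le_mul (hb1 _ (ends R i).2.2) (hb2 _ (ends R i).1.2) (hn _ _)
            (Cinf_nonneg hy.le _ _)
          have u1 := hprod ((ends R i).1 : Site) ((ends R i).2 : Site) hs.1 hs.2
          have u2 := hprod ((ends R i).2 : Site) ((ends R i).1 : Site) hs.2 hs.1
          linarith
      _ ≤ 4 * A * X := by
          rw [← mul_sum, sum_add_distrib, sum_add_distrib, sum_add_distrib]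
          nlinarith
  have hhalf : Cinf y 0 v / 2 ≤ Cinf x 0 v := by
    have h1 : (y - x) * (4 * A * X) ≤
        1 / (16 * 4 ^ p * Kχ) * μ ^ (2 - 1 / (512 * B)) * (4 * A * X) :=
      mul_le_mul_of_nonneg_right hgap (by positivity)
    have h2 : 1 / (16 * 4 ^ p * Kχ) * μ ^ (2 - 1 / (512 * B)) * (4 * A * X) = Cinf y 0 v / 2 := by
      simp only [A, X]
      rw [Real.rpow_neg hm.le]
      have : (0 : ℝ) < μ ^ (2 - 1 / (512 * B)) := by positivity
      field_simp
      ring
    linarith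
  have hxm : mass x * nv v ≤ -Real.log (Cinf y 0 v / 2) := by
    have h1 := Real.log_le_log (half_pos hC) (hhalf.trans (Cinf_le_exp hx v))
    rw [Real.log_exp] at h1
    linarith
  have hn0 : (0 : ℝ) < nv v := by linarith
  calc mass x ≤ K₁ * (1 + Real.log (1 / μ)) / nv v := by
        rw [le_div_iff₀ hn0]; exact hxm.trans hlog
    _ ≤ K₁ * ((1 + (p : ℝ)) * μ ^ (-(1 / (p : ℝ)))) / (c₁ * μ ^ (-a₁)) := by
        refine div_le_div₀ (by positivity) (mul_le_mul_of_nonneg_left ?_ hK₁.le) (by positivity) hnlow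
        have := log_factor_le hm hm1 (show (0 : ℝ) < 1 / p by positivity)
        rwa [one_div_one_div] at this
    _ = _ := by
        rw [show 1 - 2 / (p : ℝ) = -(1 / (p : ℝ)) - -a₁ by rw [ha₁]; ring, Real.rpow_sub hm]
        field_simp

/-- A function obeying such a step vanishes like a power at the threshold. -/
theorem exists_rpow_bound {f : ℝ → ℝ} {z c K μ₀ q a' : ℝ} (_ : 0 < z) (hc : 0 < c) (hK : 0 < K)
    (hμ₀ : 0 < μ₀) (hμ₀1 : μ₀ ≤ 1) (hq : 0 < q) (ha'0 : 0 < a') (ha'1 : a' ≤ 1)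
    (hanti : ∀ x y, 0 < x → x ≤ y → f y ≤ f x) (hpos : ∀ x, 0 < x → x < z → 0 < f x)
    (hlim : ∀ t > 0, ∃ y, 0 < y ∧ y < z ∧ f y < t)
    (hstep : ∀ x y, 0 < x → x ≤ y → y < z → 0 < f y → f y ≤ μ₀ → y - x ≤ c * f y ^ q →
      f x ≤ K * f y ^ a') :
    ∃ K' : ℝ, 0 < K' ∧ ∀ b, z / 2 ≤ b → b < z → f b ≤ K' * (z - b) ^ (a' * a' / q) := by
  set t₀ : ℝ := min μ₀ ((μ₀ / K) ^ (1 / a'))
  have ht₀ : 0 < t₀ := lt_min hμ₀ (by positivity)
  set K₀ := max (max 1 (K * K ^ a')) (f (z / 2) / t₀ ^ (a' * a'))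
  have hK₀ : 0 < K₀ := lt_of_lt_of_le zero_lt_one (le_max_of_le_left (le_max_left _ _))
  refine ⟨K₀ / c ^ (a' * a' / q), by positivity, fun b hb2 hb => ?_⟩
  have hb0 : 0 < b := by linarith
  have hδ : 0 < z - b := sub_pos.2 hb
  set t := ((z - b) / c) ^ (1 / q)
  have ht : 0 < t := by positivity
  have htq : c * t ^ q = z - b := by
    rw [← Real.rpow_mul (by positivity), one_div_mul_cancel hq.ne', Real.rpow_one]
    field_simp
  suffices h : f b ≤ K₀ * t ^ (a' * a') by
    refine h.trans (le_of_eq ?_)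
    rw [← Real.rpow_mul (by positivity), one_div_mul_eq_div, Real.div_rpow hδ.le hc.le,
      mul_div_assoc', div_mul_eq_mul_div]
  by_cases htt : t₀ < t
  · have h1 : f (z / 2) ≤ K₀ * t₀ ^ (a' * a') := by
      rw [← div_le_iff₀ (by positivity)]; exact le_max_right _ _
    exact ((hanti _ _ (by linarith) hb2).trans h1).trans (mul_le_mul_of_nonneg_left
      (Real.rpow_le_rpow ht₀.le htt.le (by positivity)) hK₀.le)
  rw [not_lt] at htt
  have ht1 : t ≤ 1 := htt.trans ((min_le_left _ _).trans hμ₀1)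
  by_cases hmb : f b ≤ t
  · refine hmb.trans ?_
    calc t = t ^ (1 : ℝ) := (Real.rpow_one t).symm
      _ ≤ t ^ (a' * a') := Real.rpow_le_rpow_of_exponent_ge ht ht1 (mul_le_one₀ ha'1 ha'0.le ha'1)
      _ ≤ K₀ * t ^ (a' * a') :=
          le_mul_of_one_le_left (by positivity) (le_max_of_le_left (le_max_left _ _))
  rw [not_le] at hmb
  set S := {x : ℝ | b ≤ x ∧ x < z ∧ t ≤ f x}
  have hbS : b ∈ S := ⟨le_rfl, hb, hmb.le⟩
  obtain ⟨y0, hy00, hy0, hy0t⟩ := hlim t ht
  have hSy : ∀ x ∈ S, x ≤ y0 := fun x hx =>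
    le_of_not_gt fun hlt => (hx.2.2.trans (hanti _ _ hy00 hlt.le)).not_gt hy0t
  have hSb : BddAbove S := ⟨y0, hSy⟩
  set b0 := sSup S
  have hb0y : b0 ≤ y0 := csSup_le ⟨b, hbS⟩ hSy
  have hbb0 : b ≤ b0 := le_csSup hSb hbS
  obtain ⟨y1, hy11, hy12⟩ := exists_between (hb0y.trans_lt hy0)
  have hm1 := hpos y1 (by linarith) hy12
  obtain ⟨x, hxS, hx⟩ := exists_lt_of_lt_csSup ⟨b, hbS⟩
    (show b0 - c * f y1 ^ q / 2 < b0 from sub_lt_self _ (by positivity))
  obtain ⟨y, hy, hyy1, hyw⟩ : ∃ y, b0 < y ∧ y ≤ y1 ∧ y ≤ b0 + c * f y1 ^ q / 2 :=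
    ⟨_, lt_min hy11 (lt_add_of_pos_right b0 (by positivity)), min_le_left _ _, min_le_right _ _⟩
  have hyz : y < z := hyy1.trans_lt hy12
  have hx0 : 0 < x := hb0.trans_le hxS.1
  have hxy : x ≤ y := (le_csSup hSb hxS).trans hy.le
  have hmy : f y < t :=
    lt_of_not_ge fun h => hy.not_ge (le_csSup hSb ⟨hbb0.trans hy.le, hyz, h⟩)
  have hy0' : 0 < y := hx0.trans_le hxy
  have hmy0 : f y1 ≤ f y := hanti _ _ hy0' hyy1
  have hgap1 : y - x ≤ c * f y ^ q := by
    have : c * f y1 ^ q ≤ c * f y ^ q :=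
      mul_le_mul_of_nonneg_left (Real.rpow_le_rpow hm1.le hmy0 hq.le) hc.le
    linarith
  have hmx : f x ≤ K * t ^ a' :=
    (hstep x y hx0 hxy hyz (hm1.trans_le hmy0) (hmy.le.trans (htt.trans (min_le_left _ _)))
      hgap1).trans (mul_le_mul_of_nonneg_left
        (Real.rpow_le_rpow (hm1.trans_le hmy0).le hmy.le ha'0.le) hK.le)
  have hKt : K * t ^ a' ≤ μ₀ := by
    have h1 := Real.rpow_le_rpow ht.le (htt.trans (min_le_right _ _)) ha'0.le
    rw [← Real.rpow_mul (show 0 ≤ μ₀ / K by positivity), one_div_mul_cancel ha'0.ne',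
      Real.rpow_one, le_div_iff₀ hK] at h1
    linarith
  have hmxpos : 0 < f x := ht.trans_le hxS.2.2
  have hgap2 : x - b ≤ c * f x ^ q := by
    have : c * t ^ q ≤ c * f x ^ q :=
      mul_le_mul_of_nonneg_left (Real.rpow_le_rpow ht.le hxS.2.2 hq.le) hc.le
    linarith [hxS.2.1]
  refine (hstep b x hb0 hxS.1 hxS.2.1 hmxpos (hmx.trans hKt) hgap2).trans ?_
  calc K * f x ^ a' ≤ K * (K * t ^ a') ^ a' :=
        mul_le_mul_of_nonneg_left (Real.rpow_le_rpow hmxpos.le hmx ha'0.le) hK.le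
    _ = K * K ^ a' * t ^ (a' * a') := by
        rw [Real.mul_rpow hK.le (by positivity), ← Real.rpow_mul ht.le, mul_assoc]
    _ ≤ _ := mul_le_mul_of_nonneg_right (le_max_of_le_left (le_max_right _ _)) (by positivity)

/-- The mass is at most a power, larger than one half, of the distance to the threshold. -/
theorem exists_mass_le (hne : {b : ℝ | 0 < b ∧ mass b = 0}.Nonempty) :
    ∃ a K : ℝ, 1 / 2 < a ∧ 0 < K ∧ ∀ b, bc / 2 ≤ b → b < bc → mass b ≤ K * (bc - b) ^ a := by
  obtain ⟨hbc, -, hpos⟩ := bc_spec hne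
  set B := max bc 1
  have hB : 1 ≤ B := le_max_right _ _
  set η : ℝ := 1 / (256 * B) with hη
  have hη0 : 0 < η := by positivity
  obtain ⟨p, hp, hpη⟩ : ∃ p : ℕ, 2 ≤ p ∧ 16 / η < p := by
    obtain ⟨k, hk⟩ := exists_nat_gt (16 / η)
    refine ⟨k + 2, by omega, hk.trans ?_⟩
    push_cast; linarith
  have hη1 : η ≤ 1 / 256 := by
    rw [hη]
    exact div_le_div_of_nonneg_left zero_le_one (by norm_num) (by linarith)
  have hq : 2 - 1 / (512 * B) = 2 - η / 2 := by rw [hη]; ring
  have hp0 : (0 : ℝ) < p := by positivity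
  have h2p : 2 / (p : ℝ) < η / 8 := by
    rw [div_lt_iff₀ hη0] at hpη
    rw [div_lt_iff₀ hp0]
    linarith
  have h2p0 : 0 < 2 / (p : ℝ) := by positivity
  obtain ⟨c, K, μ₀, hc, hK, hμ₀, hμ₀1, hstep⟩ := exists_step hB hp
  obtain ⟨K', hK', h⟩ := exists_rpow_bound (f := mass) (a' := 1 - 2 / (p : ℝ)) hbc hc hK hμ₀ hμ₀1
    (show 0 < 2 - 1 / (512 * B) by linarith) (by linarith) (by linarith)
    (fun _ _ hx hxy => mass_anti hx hxy) hpos
    (fun t ht => exists_mass_lt hne ht)
    (fun x y hx hxy hyz => hstep x y hx hxy (hyz.le.trans (le_max_left _ _)))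
  refine ⟨_, K', ?_, hK', h⟩
  rw [lt_div_iff₀ (by linarith), hq]
  nlinarith

end

end Vale.Agent.P159
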