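import Mathlib

/-!
# P159: orientations with prescribed divergence

`O l φ` counts the orientations of the edge list `l` (parallel edges allowed) with divergence `φ`.
Removing the first edge of a trail gives a recursion, from which three inequalities follow.
-/

namespace Vale.Agent.P159

open scoped Classical

noncomputable section

variable {V : Type*}

/-- A unit charge. -/
def dl (v : V) : V → ℤ := Pi.single v 1

/-- The divergence of an edge. -/
def de (e : V × V) : V → ℤ := dl e.1 - dl e.2

/-- Orientations with divergence `φ`. -/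
def O : List (V × V) → (V → ℤ) → ℝ
  | [], φ => if φ = 0 then 1 else 0
  | e :: l, φ => O l (φ - de e) + O l (φ + de e)

lemma O_nil (φ : V → ℤ) : O [] φ = if φ = 0 then 1 else 0 := rfl

lemma O_cons (e : V × V) (l : List (V × V)) (φ : V → ℤ) :
    O (e :: l) φ = O l (φ - de e) + O l (φ + de e) := rfl

lemma O_nonneg (l : List (V × V)) : ∀ φ : V → ℤ, 0 ≤ O l φ := by
  induction l with
  | nil => intro φ; rw [O_nil]; split_ifs <;> norm_num
  | cons e l ih => intro φ; rw [O_cons]; exact add_nonneg (ih _) (ih _)

lemma O_neg (l : List (V × V)) : ∀ φ : V → ℤ, O l (-φ) = O l φ := by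
  induction l with
  | nil => intro φ; simp only [O_nil, neg_eq_zero]
  | cons e l ih =>
    intro φ
    rw [O_cons, O_cons, ← ih (φ - de e), ← ih (φ + de e), add_comm]
    congr 2 <;> abel

/-- Number of edge ends at `a`. -/
def inc (a : V) : List (V × V) → ℤ
  | [] => 0
  | e :: l => (if e.1 = a then 1 else 0) + (if e.2 = a then 1 else 0) + inc a l

/-- The edges at `a`, with their other end and the remaining list. -/
def moves (a : V) : List (V × V) → List (V × List (V × V))
  | [] => []
  | e :: l => (if e.1 = a then [(e.2, l)] else []) ++ (if e.2 = a then [(e.1, l)] else []) ++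
      (moves a l).map fun p => (p.1, e :: p.2)

/-- The sum over first steps at `a`. -/
def T (a : V) (l : List (V × V)) (φ : V → ℤ) : ℝ :=
  ((moves a l).map fun p => O p.2 (φ - dl a + dl p.1)).sum

lemma inc_nonneg (a : V) : ∀ l : List (V × V), 0 ≤ inc a l
  | [] => le_rfl
  | e :: l => by
    have := inc_nonneg a l
    simp only [inc]
    split_ifs <;> omega

lemma T_cons (a : V) (e : V × V) (l : List (V × V)) (φ : V → ℤ) :
    T a (e :: l) φ = (if e.1 = a then O l (φ - de e) else 0) +
      (if e.2 = a then O l (φ + de e) else 0) + T a l (φ - de e) + T a l (φ + de e) := by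
  have hmap : (((moves a l).map fun p => (p.1, e :: p.2)).map
      fun p => O p.2 (φ - dl a + dl p.1)).sum = T a l (φ - de e) + T a l (φ + de e) := by
    rw [T, T, ← List.sum_map_add, List.map_map]
    congr 1
    refine List.map_congr_left fun p _ => ?_
    simp only [Function.comp_apply, O_cons]
    congr 2 <;> abel
  rw [T, moves, List.map_append, List.map_append, List.sum_append, List.sum_append, hmap]
  have e1 : ((if e.1 = a then [(e.2, l)] else []).map fun p => O p.2 (φ - dl a + dl p.1)).sum =
      if e.1 = a then O l (φ - de e) else 0 := by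
    split_ifs with h
    · subst h
      simp only [List.map_cons, List.map_nil, List.sum_cons, List.sum_nil, add_zero, de]
      congr 1; abel
    · simp
  have e2 : ((if e.2 = a then [(e.1, l)] else []).map fun p => O p.2 (φ - dl a + dl p.1)).sum =
      if e.2 = a then O l (φ + de e) else 0 := by
    split_ifs with h
    · subst h
      simp only [List.map_cons, List.map_nil, List.sum_cons, List.sum_nil, add_zero, de]
      congr 1; abel
    · simp
  rw [e1, e2]; ring

lemma dl_apply (v a : V) : dl v a = if v = a then 1 else 0 := by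
  by_cases h : v = a
  · subst h; simp [dl]
  · simp [dl, h, Ne.symm h]

/-- Removing the first step at `a`. -/
theorem mul_O (a : V) (l : List (V × V)) :
    ∀ φ : V → ℤ, ((inc a l + φ a : ℤ) : ℝ) * O l φ = 2 * T a l φ := by
  induction l with
  | nil =>
    intro φ
    by_cases h : φ = 0
    · simp [h, inc, T, moves]
    · simp [O_nil, h, T, moves]
  | cons e l ih =>
    intro φ
    have h1 := ih (φ - de e)
    have h2 := ih (φ + de e)
    simp only [Pi.add_apply, Pi.sub_apply, de, dl_apply] at h1 h2
    rw [T_cons, O_cons]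
    simp only [de] at h1 h2 ⊢
    simp only [inc]
    split_ifs at h1 h2 ⊢ <;> push_cast at h1 h2 ⊢ <;> linarith

lemma moves_spec (a : V) : ∀ (l : List (V × V)), ∀ p ∈ moves a l,
    p.2.length < l.length ∧ p.2 ⊆ l ∧ ((a, p.1) ∈ l ∨ (p.1, a) ∈ l)
  | [], p, hp => by simp [moves] at hp
  | e :: l, p, hp => by
    simp only [moves, List.mem_append, List.mem_map] at hp
    rcases hp with (h | h) | ⟨q, hq, rfl⟩
    · split_ifs at h with h'
      · rw [List.mem_singleton] at h
        subst h h'
        exact ⟨by simp, List.subset_cons_self _ _, Or.inl (by simp)⟩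
      · simp at h
    · split_ifs at h with h'
      · rw [List.mem_singleton] at h
        subst h h'
        exact ⟨by simp, List.subset_cons_self _ _, Or.inr (by simp)⟩
      · simp at h
    · obtain ⟨h1, h2, h3⟩ := moves_spec a l q hq
      refine ⟨by simpa using h1, List.cons_subset_cons e h2, ?_⟩
      exact h3.imp (List.mem_cons_of_mem _) (List.mem_cons_of_mem _)

lemma sum_map_le {β : Type*} (L : List β) {f g : β → ℝ} (h : ∀ p ∈ L, f p ≤ g p) :
    (L.map f).sum ≤ (L.map g).sum := List.sum_le_sum h

/-- A double charge at `u` between two single charges is rarer than a single pair. -/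
theorem O_double_le : ∀ (l : List (V × V)) (a x u : V),
    O l (dl a - 2 • dl u + dl x) ≤ O l (dl a - dl x) := by
  intro l
  induction hn : l.length using Nat.strong_induction_on generalizing l with
  | _ n ih =>
    subst hn
    intro a x u
    by_cases hau : a = u
    · subst hau
      rw [← O_neg l (dl a - 2 • dl a + dl x)]
      refine le_of_eq (congrArg _ ?_)
      abel
    by_cases hxu : x = u
    · subst hxu
      refine le_of_eq (congrArg _ ?_)
      abel
    have hT : T a l (dl a - 2 • dl u + dl x) ≤ T a l (dl a - dl x) := by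
      refine sum_map_le _ fun p hp => ?_
      refine le_trans (le_of_eq (congrArg _ ?_)) ((ih _ (moves_spec a l p hp).1 p.2 rfl p.1 x u).trans
        (le_of_eq (congrArg _ ?_))) <;> abel
    have h1 := mul_O a l (dl a - 2 • dl u + dl x)
    have h2 := mul_O a l (dl a - dl x)
    have hi : (0 : ℝ) ≤ (inc a l : ℝ) := by exact_mod_cast inc_nonneg a l
    by_cases hax : a = x
    · subst hax
      rw [show (dl a - 2 • dl u + dl a : V → ℤ) a = 2 by simp [dl_apply, Ne.symm hau]] at h1
      rw [show (dl a - dl a : V → ℤ) a = 0 by simp] at h2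
      push_cast at h1 h2
      nlinarith [O_nonneg l (dl a - 2 • dl u + dl a), O_nonneg l (dl a - dl a)]
    · rw [show (dl a - 2 • dl u + dl x : V → ℤ) a = 1 by
        simp [dl_apply, Ne.symm hau, Ne.symm hax]] at h1
      rw [show (dl a - dl x : V → ℤ) a = 1 by simp [dl_apply, Ne.symm hax]] at h2
      push_cast at h1 h2
      by_contra hlt
      nlinarith [not_le.1 hlt]

/-- Every trail from inside `I` meets the shell `W` before it leaves. -/
theorem O_exit_le (I : Set V) (W : Finset V) : ∀ (l : List (V × V)),
    (∀ e ∈ l, (e.1 ∈ I → e.2 ∈ I ∨ e.2 ∈ W) ∧ (e.2 ∈ I → e.1 ∈ I ∨ e.1 ∈ W)) →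
    (∀ w ∈ W, w ∉ I) → ∀ a ∈ I, ∀ ρ : V → ℤ, (∀ v ∈ I, ρ v = 0) →
    O l (dl a + ρ) ≤ ∑ u ∈ W, O l (2 • dl u - dl a + ρ) := by
  intro l
  induction hn : l.length using Nat.strong_induction_on generalizing l with
  | _ n ih =>
    subst hn
    intro hl hWI a ha ρ hρ
    have hkey : T a l (dl a + ρ) ≤ ∑ u ∈ W, T a l (dl a - 2 • dl u - ρ) := by
      rw [show ∑ u ∈ W, T a l (dl a - 2 • dl u - ρ) = ((moves a l).map fun p =>
        ∑ u ∈ W, O p.2 (dl a - 2 • dl u - ρ - dl a + dl p.1)).sum from ?_]
      · refine sum_map_le _ fun p hp => ?_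
        obtain ⟨hlen, hsub, hadj⟩ := moves_spec a l p hp
        have hrw : ∀ u, O p.2 (dl a - 2 • dl u - ρ - dl a + dl p.1) =
            O p.2 (2 • dl u - dl p.1 + ρ) := fun u => by
          rw [← O_neg]; congr 1; abel
        simp only [hrw]
        rw [show dl a + ρ - dl a + dl p.1 = dl p.1 + ρ by abel]
        have hw : p.1 ∈ I ∨ p.1 ∈ W := by
          rcases hadj with h | h
          · exact (hl _ h).1 ha
          · exact (hl _ h).2 ha
        rcases hw with hw | hw
        · exact ih _ hlen p.2 rfl (fun e he => hl e (hsub he)) hWI p.1 hw ρ hρ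
        · refine le_trans (le_of_eq (congrArg _ ?_))
            (Finset.single_le_sum (fun u _ => O_nonneg p.2 _) hw)
          abel
      · simp only [T]
        induction moves a l with
        | nil => simp
        | cons p L IH => simp only [List.map_cons, List.sum_cons, Finset.sum_add_distrib, IH]
    have h1 := mul_O a l (dl a + ρ)
    have h2 : ∀ u ∈ W, ((inc a l : ℝ) + 1) * O l (2 • dl u - dl a + ρ) =
        2 * T a l (dl a - 2 • dl u - ρ) := fun u hu => by
      have := mul_O a l (dl a - 2 • dl u - ρ)
      have hua : u ≠ a := fun h => hWI u hu (h ▸ ha)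
      rw [show (dl a - 2 • dl u - ρ : V → ℤ) a = 1 by simp [dl_apply, hρ a ha, hua]] at this
      push_cast at this
      rw [← this, ← O_neg l (2 • dl u - dl a + ρ)]
      congr 2; abel
    rw [show (dl a + ρ : V → ℤ) a = 1 by simp [dl_apply, hρ a ha]] at h1
    push_cast at h1
    have hi : (0 : ℝ) < (inc a l : ℝ) + 1 := by
      have : (0 : ℝ) ≤ (inc a l : ℝ) := by exact_mod_cast inc_nonneg a l
      linarith
    refine le_of_mul_le_mul_left ?_ hi
    rw [h1, Finset.mul_sum, Finset.sum_congr rfl h2, ← Finset.mul_sum]
    linarith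

/-- The two orientations of a pair of charges differ by at most the crossed configuration. -/
theorem O_diff_le : ∀ (l : List (V × V)) (a x u v : V),
    |O l (dl a + dl u - dl v - dl x) - O l (dl a + dl v - dl u - dl x)| ≤
      O l (dl a + dl x - dl u - dl v) := by
  intro l
  induction hn : l.length using Nat.strong_induction_on generalizing l with
  | _ n ih =>
    subst hn
    intro a x u v
    have h0 := O_nonneg l (dl a + dl x - dl u - dl v)
    by_cases hax : a = x
    · subst hax
      rw [← O_neg l (dl a + dl v - dl u - dl a), show -(dl a + dl v - dl u - dl a) =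
        dl a + dl u - dl v - dl a by abel, sub_self, abs_zero]
      exact h0
    by_cases hau : a = u
    · subst hau
      have h := O_double_le l v x a
      rw [← O_neg l (dl v - 2 • dl a + dl x)] at h
      rw [show -(dl v - 2 • dl a + dl x) = dl a + dl a - dl v - dl x by abel] at h
      rw [show dl a + dl v - dl a - dl x = dl v - dl x by abel, ← O_neg l (dl a + dl x - _ - _),
        show -(dl a + dl x - dl a - dl v) = dl v - dl x by abel, abs_le]
      have := O_nonneg l (dl a + dl a - dl v - dl x)
      constructor <;> linarith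
    by_cases hav : a = v
    · subst hav
      have h := O_double_le l u x a
      rw [← O_neg l (dl u - 2 • dl a + dl x)] at h
      rw [show -(dl u - 2 • dl a + dl x) = dl a + dl a - dl u - dl x by abel] at h
      rw [show dl a + dl u - dl a - dl x = dl u - dl x by abel, ← O_neg l (dl a + dl x - _ - _),
        show -(dl a + dl x - dl u - dl a) = dl u - dl x by abel, abs_le]
      have := O_nonneg l (dl a + dl a - dl u - dl x)
      constructor <;> linarith
    have hT : |T a l (dl a + dl u - dl v - dl x) - T a l (dl a + dl v - dl u - dl x)| ≤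
        T a l (dl a + dl x - dl u - dl v) := by
      simp only [T]
      have hsp : ∀ p ∈ moves a l,
          |O p.2 (dl a + dl u - dl v - dl x - dl a + dl p.1) -
            O p.2 (dl a + dl v - dl u - dl x - dl a + dl p.1)| ≤
          O p.2 (dl a + dl x - dl u - dl v - dl a + dl p.1) := fun p hp => by
        refine le_trans (le_of_eq ?_) ((ih _ (moves_spec a l p hp).1 p.2 rfl p.1 x u v).trans
          (le_of_eq (congrArg _ ?_)))
        · congr 3 <;> abel
        · abel
      revert hsp
      generalize moves a l = L
      induction L with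
      | nil => simp
      | cons p L IH =>
        intro hsp
        simp only [List.map_cons, List.sum_cons]
        rw [add_sub_add_comm]
        exact (abs_add_le _ _).trans (add_le_add (hsp p (by simp))
          (IH fun q hq => hsp q (List.mem_cons_of_mem _ hq)))
    have h1 := mul_O a l (dl a + dl u - dl v - dl x)
    have h2 := mul_O a l (dl a + dl v - dl u - dl x)
    have h3 := mul_O a l (dl a + dl x - dl u - dl v)
    simp [dl_apply, Ne.symm hax, Ne.symm hau, Ne.symm hav] at h1 h2 h3
    have hi : (0 : ℝ) < (inc a l : ℝ) + 1 := by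
      have : (0 : ℝ) ≤ (inc a l : ℝ) := by exact_mod_cast inc_nonneg a l
      linarith
    refine le_of_mul_le_mul_left ?_ hi
    rw [h3, ← abs_of_pos hi, ← abs_mul, mul_sub, h1, h2, ← mul_sub, abs_mul,
      abs_of_pos (two_pos : (0 : ℝ) < 2)]
    linarith

/-- Pairs of orientations which agree on the first list. -/
def K : List (V × V) → List (V × V) → (V → ℤ) → (V → ℤ) → ℝ
  | [], li, P, Q => O li P * O li Q
  | e :: lo, li, P, Q => K lo li (P - de e) (Q - de e) + K lo li (P + de e) (Q + de e)

/-- The exit inequality with a coupled outside. -/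
theorem K_exit_le (I : Set V) (W : Finset V) (li : List (V × V))
    (hl : ∀ e ∈ li, (e.1 ∈ I → e.2 ∈ I ∨ e.2 ∈ W) ∧ (e.2 ∈ I → e.1 ∈ I ∨ e.1 ∈ W))
    (hWI : ∀ w ∈ W, w ∉ I) {a : V} (ha : a ∈ I) : ∀ (lo : List (V × V)),
    (∀ e ∈ lo, e.1 ∉ I ∧ e.2 ∉ I) → ∀ P ρ : V → ℤ, (∀ v ∈ I, ρ v = 0) →
    K lo li P (dl a + ρ) ≤ ∑ u ∈ W, K lo li P (2 • dl u - dl a + ρ) := by
  intro lo
  induction lo with
  | nil =>
    intro _ P ρ hρ
    simp only [K]
    rw [← Finset.mul_sum]
    exact mul_le_mul_of_nonneg_left (O_exit_le I W li hl hWI a ha ρ hρ) (O_nonneg _ _)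
  | cons e lo ih =>
    intro hlo P ρ hρ
    obtain ⟨he, hlo⟩ := List.forall_mem_cons.1 hlo
    have hd : ∀ v ∈ I, de e v = 0 := fun v hv => by
      have n1 : e.1 ≠ v := fun h => he.1 (h ▸ hv)
      have n2 : e.2 ≠ v := fun h => he.2 (h ▸ hv)
      simp [de, dl_apply, n1, n2]
    simp only [K, Finset.sum_add_distrib]
    refine add_le_add ?_ ?_
    · have := ih hlo (P - de e) (ρ - de e) fun v hv => by simp [hρ v hv, hd v hv]
      simpa only [add_sub_assoc] using this
    · have := ih hlo (P + de e) (ρ + de e) fun v hv => by simp [hρ v hv, hd v hv]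
      simpa only [← add_assoc] using this

end

end Vale.Agent.P159
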