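import Vale.Agent.P159.Orient
import Vale.Agent.P159.Defs

/-!
# P159: products of two partition functions of the XY model as sums of orientation counts

With the angles `θ = α + β`, `θ' = α - β` of two replicas, an edge of both replicas carries
`2 cos (dα) cos (dβ)` and an edge of the first one alone `cos (dα + dβ)`.
-/

namespace Vale.Agent.P159

open MeasureTheory Filter
open scoped Classical Topology

noncomputable section

lemma cs_zero : cs 0 = 1 := Real.Angle.cos_zero

lemma cs_neg (x : Ang) : cs (-x) = cs x := Real.Angle.cos_neg x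

lemma cs_add_sub (x y : Ang) : cs (x + y) + cs (x - y) = 2 * cs x * cs y := by
  have h1 : cs (x + y) = cs x * cs y - Real.Angle.sin x * Real.Angle.sin y :=
    Real.Angle.cos_add x y
  have h2 : cs (x - y) = cs x * Real.Angle.cos (-(y : Real.Angle)) -
      Real.Angle.sin x * Real.Angle.sin (-(y : Real.Angle)) := by
    rw [sub_eq_add_neg]; exact Real.Angle.cos_add x (-y)
  erw [Real.Angle.cos_neg, Real.Angle.sin_neg] at h2
  rw [h1, h2]
  show _ = 2 * cs x * cs y
  simp only [cs]
  ring

lemma abs_cs_le (x : Ang) : |cs x| ≤ 1 := by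
  induction x using QuotientAddGroup.induction_on with
  | H r => exact Real.abs_cos_le_one r

@[fun_prop]
lemma continuous_cs : Continuous cs := Real.Angle.continuous_cos

variable {V : Type*} [Fintype V]

/-- A character, as an angle. -/
def dot (φ : V → ℤ) (θ : V → Ang) : Ang := ∑ v, φ v • θ v

lemma dot_add (φ ψ : V → ℤ) (θ : V → Ang) : dot (φ + ψ) θ = dot φ θ + dot ψ θ := by
  simp [dot, add_zsmul, Finset.sum_add_distrib]

lemma dot_neg (φ : V → ℤ) (θ : V → Ang) : dot (-φ) θ = -dot φ θ := by
  simp [dot]

lemma dot_sub (φ ψ : V → ℤ) (θ : V → Ang) : dot (φ - ψ) θ = dot φ θ - dot ψ θ := by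
  rw [sub_eq_add_neg, dot_add, dot_neg, ← sub_eq_add_neg]

lemma dot_zero (θ : V → Ang) : dot 0 θ = 0 := by simp [dot]

lemma dot_add_right (φ : V → ℤ) (θ θ' : V → Ang) : dot φ (θ + θ') = dot φ θ + dot φ θ' := by
  simp [dot, smul_add, Finset.sum_add_distrib]

lemma dot_neg_right (φ : V → ℤ) (θ : V → Ang) : dot φ (-θ) = -dot φ θ := by
  simp [dot, smul_neg]

lemma dot_de (e : V × V) (θ : V → Ang) : dot (de e) θ = θ e.1 - θ e.2 := by
  rw [de, dot_sub]
  simp [dot, dl, Pi.single_apply, ite_smul]

@[fun_prop]
lemma continuous_dot (φ : V → ℤ) : Continuous (dot φ) := by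
  unfold dot
  fun_prop

instance : IsProbabilityMeasure (law V) := by unfold law; infer_instance

instance : (law V).IsAddHaarMeasure := by unfold law; infer_instance

instance : BorelSpace ((V → Ang) × (V → Ang)) := Prod.borelSpace

instance : MeasurableAdd ((V → Ang) × (V → Ang)) := ContinuousAdd.measurableAdd

/-- The law of two replicas. -/
def law2 (V : Type*) [Fintype V] : Measure ((V → Ang) × (V → Ang)) := (law V).prod (law V)

instance : IsProbabilityMeasure (law2 V) := by unfold law2; infer_instance

instance : (law2 V).IsAddHaarMeasure := Measure.prod.instIsAddHaarMeasure (law V) (law V)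

lemma integrable_of_continuous {X : Type*} [TopologicalSpace X] [CompactSpace X]
    [MeasurableSpace X] [OpensMeasurableSpace X] {μ : Measure X} [IsFiniteMeasure μ] {f : X → ℝ}
    (hf : Continuous f) : Integrable f μ :=
  hf.integrable_of_hasCompactSupport (HasCompactSupport.of_compactSpace f)

/-- A nontrivial character integrates to zero. -/
theorem integral_cs2 (P Q : V → ℤ) :
    ∫ ω, cs (dot P ω.1 + dot Q ω.2) ∂law2 V = if P = 0 ∧ Q = 0 then 1 else 0 := by
  split_ifs with h
  · simp [h.1, h.2, dot_zero, cs_zero]
  have hshift : ∃ c : (V → Ang) × (V → Ang), dot P c.1 + dot Q c.2 = ((Real.pi : ℝ) : Ang) := by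
    have key : ∀ φ : V → ℤ, φ ≠ 0 → ∃ c, dot φ c = ((Real.pi : ℝ) : Ang) := by
      intro φ hφ
      obtain ⟨v, hv⟩ := Function.ne_iff.1 hφ
      refine ⟨Pi.single v (((Real.pi / φ v : ℝ)) : Ang), ?_⟩
      rw [dot, Finset.sum_eq_single v (fun w _ hw => by simp [hw]) (by simp), Pi.single_eq_same,
        ← AddCircle.coe_zsmul, zsmul_eq_mul, mul_div_cancel₀]
      exact_mod_cast hv
    rw [not_and_or] at h
    rcases h with h | h
    · obtain ⟨c, hc⟩ := key P h
      exact ⟨(c, 0), by rw [dot, dot] at *; simp [hc]⟩
    · obtain ⟨c, hc⟩ := key Q h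
      exact ⟨(0, c), by rw [dot, dot] at *; simp [hc]⟩
  obtain ⟨c, hc⟩ := hshift
  have he := integral_add_right_eq_self
    (fun ω : (V → Ang) × (V → Ang) => cs (dot P ω.1 + dot Q ω.2)) c (μ := law2 V)
  simp only [Prod.fst_add, Prod.snd_add, dot_add_right] at he
  have hpi : ∀ x : Ang, cs (x + ((Real.pi : ℝ) : Ang)) = -cs x := fun x => Real.Angle.cos_add_pi x
  rw [integral_congr_ae (ae_of_all _ fun ω => by
    rw [show dot P ω.1 + dot P c.1 + (dot Q ω.2 + dot Q c.2) =
      dot P ω.1 + dot Q ω.2 + (dot P c.1 + dot Q c.2) by abel, hc, hpi]), integral_neg] at he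
  linarith

variable {ι : Type*} (S : ι → Prop) (en : ι → V × V)

/-- The factor of an edge of the two replicas. -/
def fac (i : ι) (ω : (V → Ang) × (V → Ang)) : ℝ :=
  if S i then 2 * cs (dot (de (en i)) ω.1) * cs (dot (de (en i)) ω.2)
  else cs (dot (de (en i)) ω.1 + dot (de (en i)) ω.2)

lemma continuous_fac (i : ι) : Continuous (fac S en i) := by
  unfold fac
  split_ifs <;> fun_prop

/-- The edges of both replicas. -/
def insL (l : List ι) : List (V × V) := (l.filter fun i => decide (S i)).map en

/-- The edges of the first replica alone. -/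
def outL (l : List ι) : List (V × V) := (l.filter fun i => decide (¬ S i)).map en

omit [Fintype V] in
lemma K_cons_in (e : V × V) (li : List (V × V)) : ∀ (lo : List (V × V)) (P Q : V → ℤ),
    K lo (e :: li) P Q = K lo li (P - de e) (Q - de e) + K lo li (P - de e) (Q + de e) +
      (K lo li (P + de e) (Q - de e) + K lo li (P + de e) (Q + de e)) := by
  intro lo
  induction lo with
  | nil => intro P Q; simp only [K, O_cons]; ring
  | cons f lo ih =>
    intro P Q
    simp only [K, ih]
    simp only [show ∀ x : V → ℤ, x - de f - de e = x - de e - de f from fun x => by abel,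
      show ∀ x : V → ℤ, x - de f + de e = x + de e - de f from fun x => by abel,
      show ∀ x : V → ℤ, x + de f - de e = x - de e + de f from fun x => by abel,
      show ∀ x : V → ℤ, x + de f + de e = x + de e + de f from fun x => by abel]
    ring

/-- Integrals of products of edge factors are pair counts. -/
theorem integral_prod_fac : ∀ (l : List ι) (P Q : V → ℤ),
    ∫ ω, (l.map fun i => fac S en i ω).prod * cs (dot P ω.1 + dot Q ω.2) ∂law2 V =
      K (outL S en l) (insL S en l) P Q / 2 ^ l.length := by
  intro l
  induction l with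
  | nil =>
    intro P Q
    simp only [List.map_nil, List.prod_nil, one_mul, integral_cs2, outL, insL, List.filter_nil,
      K, O_nil, List.length_nil, pow_zero, div_one]
    split_ifs with h1 h2 h3 <;> simp_all
  | cons i l ih =>
    intro P Q
    have hc : Continuous fun ω => (l.map fun j => fac S en j ω).prod :=
      continuous_list_prod _ fun j _ => continuous_fac S en j
    have hint : ∀ P' Q' : V → ℤ, Integrable
        (fun ω => (l.map fun j => fac S en j ω).prod * cs (dot P' ω.1 + dot Q' ω.2)) (law2 V) :=
      fun P' Q' => integrable_of_continuous (hc.mul (by fun_prop))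
    set d := de (en i)
    by_cases hi : S i
    · have hpt : ∀ ω : (V → Ang) × (V → Ang),
          fac S en i ω * cs (dot P ω.1 + dot Q ω.2) =
          (cs (dot (P - d) ω.1 + dot (Q - d) ω.2) + cs (dot (P - d) ω.1 + dot (Q + d) ω.2) +
            (cs (dot (P + d) ω.1 + dot (Q - d) ω.2) + cs (dot (P + d) ω.1 + dot (Q + d) ω.2))) / 2 := by
        intro ω
        simp only [fac, if_pos hi, dot_add, dot_sub]
        have h1 := cs_add_sub (dot d ω.1) (dot d ω.2)
        have h2 := cs_add_sub (dot P ω.1 + dot Q ω.2) (dot d ω.1 + dot d ω.2)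
        have h3 := cs_add_sub (dot P ω.1 + dot Q ω.2) (dot d ω.1 - dot d ω.2)
        simp only [show dot P ω.1 + dot Q ω.2 + (dot d ω.1 + dot d ω.2) =
            dot P ω.1 + dot d ω.1 + (dot Q ω.2 + dot d ω.2) by abel,
          show dot P ω.1 + dot Q ω.2 - (dot d ω.1 + dot d ω.2) =
            dot P ω.1 - dot d ω.1 + (dot Q ω.2 - dot d ω.2) by abel,
          show dot P ω.1 + dot Q ω.2 + (dot d ω.1 - dot d ω.2) =
            dot P ω.1 + dot d ω.1 + (dot Q ω.2 - dot d ω.2) by abel,
          show dot P ω.1 + dot Q ω.2 - (dot d ω.1 - dot d ω.2) =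
            dot P ω.1 - dot d ω.1 + (dot Q ω.2 + dot d ω.2) by abel] at h2 h3
        linear_combination (-(cs (dot P ω.1 + dot Q ω.2))) * h1 - (1 / 2) * h2 - (1 / 2) * h3
      simp only [List.map_cons, List.prod_cons]
      rw [integral_congr_ae (ae_of_all _ fun ω => show
        fac S en i ω * (l.map fun j => fac S en j ω).prod * cs (dot P ω.1 + dot Q ω.2) =
          ((l.map fun j => fac S en j ω).prod * cs (dot (P - d) ω.1 + dot (Q - d) ω.2) +
            (l.map fun j => fac S en j ω).prod * cs (dot (P - d) ω.1 + dot (Q + d) ω.2) +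
            ((l.map fun j => fac S en j ω).prod * cs (dot (P + d) ω.1 + dot (Q - d) ω.2) +
            (l.map fun j => fac S en j ω).prod * cs (dot (P + d) ω.1 + dot (Q + d) ω.2))) / 2 by
          rw [mul_comm (fac S en i ω), mul_assoc, hpt]; ring)]
      rw [integral_div, integral_add ((hint _ _).fun_add (hint _ _)) ((hint _ _).fun_add (hint _ _)),
        integral_add (hint _ _) (hint _ _), integral_add (hint _ _) (hint _ _), ih, ih, ih, ih]
      rw [show outL S en (i :: l) = outL S en l by simp [outL, hi],
        show insL S en (i :: l) = en i :: insL S en l by simp [insL, hi], K_cons_in,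
        List.length_cons, pow_succ]
      field_simp
      ring
    · have hpt : ∀ ω : (V → Ang) × (V → Ang),
          fac S en i ω * cs (dot P ω.1 + dot Q ω.2) =
          (cs (dot (P - d) ω.1 + dot (Q - d) ω.2) + cs (dot (P + d) ω.1 + dot (Q + d) ω.2)) / 2 := by
        intro ω
        simp only [fac, if_neg hi, dot_add, dot_sub]
        have h2 := cs_add_sub (dot P ω.1 + dot Q ω.2) (dot d ω.1 + dot d ω.2)
        simp only [show dot P ω.1 + dot Q ω.2 + (dot d ω.1 + dot d ω.2) =
            dot P ω.1 + dot d ω.1 + (dot Q ω.2 + dot d ω.2) by abel,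
          show dot P ω.1 + dot Q ω.2 - (dot d ω.1 + dot d ω.2) =
            dot P ω.1 - dot d ω.1 + (dot Q ω.2 - dot d ω.2) by abel] at h2
        linear_combination -(1 / 2) * h2
      simp only [List.map_cons, List.prod_cons]
      rw [integral_congr_ae (ae_of_all _ fun ω => show
        fac S en i ω * (l.map fun j => fac S en j ω).prod * cs (dot P ω.1 + dot Q ω.2) =
          ((l.map fun j => fac S en j ω).prod * cs (dot (P - d) ω.1 + dot (Q - d) ω.2) +
            (l.map fun j => fac S en j ω).prod * cs (dot (P + d) ω.1 + dot (Q + d) ω.2)) / 2 by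
          rw [mul_comm (fac S en i ω), mul_assoc, hpt]; ring)]
      rw [integral_div, integral_add (hint _ _) (hint _ _), ih, ih]
      rw [show outL S en (i :: l) = en i :: outL S en l by simp [outL, hi],
        show insL S en (i :: l) = insL S en l by simp [insL, hi], K,
        List.length_cons, pow_succ]
      field_simp
      rfl

variable [Fintype ι] (J : ι → ℝ)

/-- The energy of the model with couplings `J`. -/
def energy (θ : V → Ang) : ℝ := ∑ i, J i * cs (dot (de (en i)) θ)

@[fun_prop]
lemma continuous_energy : Continuous (energy en J) := by unfold energy; fun_prop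

/-- An unnormalised correlation. -/
def Z (φ : V → ℤ) : ℝ := ∫ θ, Real.exp (energy en J θ) * cs (dot φ θ) ∂law V

/-- The couplings inside `S`. -/
def cut : ι → ℝ := fun i => if S i then J i else 0

/-- A partial sum of the expansion. -/
def part (P Q : V → ℤ) (n : ℕ) : ℝ :=
  ∑ k ∈ Finset.range n, (∑ l : Fin k → ι, (∏ j, J (l j)) *
    (K (outL S en (List.ofFn l)) (insL S en (List.ofFn l)) P Q / 2 ^ k)) / k.factorial

/-- Two replicas in the angles `α`, `β`. -/
theorem Z_mul_eq (A B : V → ℤ) :
    Z en J A * Z en (cut S J) B = ∫ ω, Real.exp (∑ i, J i * fac S en i ω) *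
      cs (dot (A + B) ω.1 + dot (A - B) ω.2) ∂law2 V := by
  set F : (V → Ang) × (V → Ang) → ℝ := fun p =>
    Real.exp (energy en J p.1 + energy en (cut S J) p.2) * cs (dot A p.1 + dot B p.2) with hF
  have hFc : Continuous F := by rw [hF]; fun_prop
  let N : (V → Ang) × (V → Ang) →+ (V → Ang) × (V → Ang) :=
    { toFun := fun ω => (ω.1, -ω.2)
      map_zero' := by simp
      map_add' := fun a b => Prod.ext rfl (neg_add a.2 b.2) }
  have hNc : Continuous N := continuous_fst.prodMk continuous_snd.neg
  have hneg : MeasurePreserving (fun p : (V → Ang) × (V → Ang) => (p.1, -p.2)) (law2 V) (law2 V) :=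
    AddMonoidHom.measurePreserving (f := N) hNc (fun p => ⟨(p.1, -p.2), by simp [N]⟩) rfl
  have henv : ∀ θ : V → Ang, energy en (cut S J) (-θ) = energy en (cut S J) θ := fun θ => by
    simp [energy, dot_neg_right, cs_neg]
  have hflip : ∫ p, F (p.1, -p.2) ∂law2 V = ∫ p, F p ∂law2 V :=
    hneg.integral_comp (Homeomorph.prodCongr (Homeomorph.refl _) (Homeomorph.neg _)).measurableEmbedding
      F
  have hprod : ∫ p, F p ∂law2 V = Z en J A * Z en (cut S J) B := by
    have hsum : ∀ p : (V → Ang) × (V → Ang), (F p + F (p.1, -p.2)) / 2 =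
        (Real.exp (energy en J p.1) * cs (dot A p.1)) *
          (Real.exp (energy en (cut S J) p.2) * cs (dot B p.2)) := fun p => by
      simp only [hF, henv, Real.exp_add, dot_neg_right, ← sub_eq_add_neg]
      linear_combination (Real.exp (energy en J p.1) * Real.exp (energy en (cut S J) p.2) / 2) *
        cs_add_sub (dot A p.1) (dot B p.2)
    have := integral_congr_ae (μ := law2 V) (ae_of_all _ hsum)
    rw [integral_div, integral_add (integrable_of_continuous hFc)
      (integrable_of_continuous (show Continuous fun p : (V → Ang) × (V → Ang) => F (p.1, -p.2) from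
        hFc.comp (continuous_fst.prodMk continuous_snd.neg))), hflip, law2] at this
    rw [Z, Z, ← integral_prod_mul (fun θ => Real.exp (energy en J θ) * cs (dot A θ))
      (fun θ => Real.exp (energy en (cut S J) θ) * cs (dot B θ)), ← this, law2]
    ring
  let T : (V → Ang) × (V → Ang) →+ (V → Ang) × (V → Ang) :=
    { toFun := fun ω => (ω.1 + ω.2, ω.1 - ω.2)
      map_zero' := by simp
      map_add' := fun a b => Prod.ext (add_add_add_comm a.1 b.1 a.2 b.2)
        (add_sub_add_comm a.1 b.1 a.2 b.2) }
  have hTc : Continuous T := by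
    show Continuous fun ω : (V → Ang) × (V → Ang) => (ω.1 + ω.2, ω.1 - ω.2)
    fun_prop
  have hhalf : ∀ x : Ang, ∃ y : Ang, y + y = x := fun x => by
    induction x using QuotientAddGroup.induction_on with
    | H r => exact ⟨((r / 2 : ℝ) : Ang), by rw [← AddCircle.coe_add, add_halves]⟩
  have hTs : Function.Surjective T := by
    rintro ⟨x, y⟩
    choose h hh using fun v => hhalf (x v + y v)
    refine ⟨(h, x - h), Prod.ext ?_ ?_⟩
    · show h + (x - h) = x
      abel
    · funext v
      show h v - (x v - h v) = y v
      rw [show h v - (x v - h v) = h v + h v - x v by abel, hh]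
      abel
  have hT : MeasurePreserving T (law2 V) (law2 V) :=
    AddMonoidHom.measurePreserving hTc hTs rfl
  rw [← hprod]
  conv_lhs => rw [← hT.map_eq]
  rw [integral_map hT.measurable.aemeasurable hFc.aestronglyMeasurable]
  refine integral_congr_ae (ae_of_all _ fun ω => ?_)
  show F (ω.1 + ω.2, ω.1 - ω.2) = _
  simp only [hF]
  congr 1
  · congr 1
    simp only [energy, ← Finset.sum_add_distrib]
    refine Finset.sum_congr rfl fun i _ => ?_
    simp only [fac, cut, dot_add_right, sub_eq_add_neg (a := ω.1), dot_neg_right,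
      ← sub_eq_add_neg (a := dot (de (en i)) ω.1)]
    split_ifs
    · rw [← mul_add, cs_add_sub]
    · ring
  · congr 1
    simp only [dot_add, dot_neg, sub_eq_add_neg, dot_add_right, dot_neg_right]
    abel

/-- The expansion converges. -/
theorem tendsto_part (A B : V → ℤ) :
    Tendsto (part S en J (A + B) (A - B)) atTop (𝓝 (Z en J A * Z en (cut S J) B)) := by
  rw [Z_mul_eq]
  set W : (V → Ang) × (V → Ang) → ℝ := fun ω => ∑ i, J i * fac S en i ω with hW
  have hWc : Continuous W :=
    continuous_finsetSum _ fun i _ => continuous_const.mul (continuous_fac S en i)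
  set c : (V → Ang) × (V → Ang) → ℝ := fun ω => cs (dot (A + B) ω.1 + dot (A - B) ω.2) with hc
  have hcc : Continuous c := by rw [hc]; fun_prop
  have hpart : ∀ n, part S en J (A + B) (A - B) n =
      ∫ ω, (∑ k ∈ Finset.range n, W ω ^ k / k.factorial) * c ω ∂law2 V := by
    intro n
    simp only [part, Finset.sum_mul]
    rw [integral_finsetSum _ fun k _ => integrable_of_continuous
      (show Continuous fun ω => W ω ^ k / (k.factorial : ℝ) * c ω from
        ((hWc.pow k).div_const _).mul hcc)]
    refine Finset.sum_congr rfl fun k _ => ?_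
    simp only [div_mul_eq_mul_div, integral_div]
    congr 1
    have hk : ∀ ω, W ω ^ k * c ω = ∑ l : Fin k → ι,
        (∏ j, J (l j)) * (((List.ofFn l).map fun i => fac S en i ω).prod * c ω) := fun ω => by
      rw [hW]
      simp only [Finset.sum_pow', Finset.sum_mul, Fintype.piFinset_univ]
      refine Finset.sum_congr rfl fun l _ => ?_
      rw [List.map_ofFn, List.prod_ofFn, Finset.prod_mul_distrib, mul_assoc]
      rfl
    rw [integral_congr_ae (ae_of_all _ hk), integral_finsetSum]
    · refine Finset.sum_congr rfl fun l _ => ?_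
      rw [integral_const_mul, hc, integral_prod_fac, List.length_ofFn]
    · exact fun l _ => integrable_of_continuous (continuous_const.mul
        ((continuous_list_prod _ fun i _ => continuous_fac S en i).mul hcc))
  rw [funext hpart]
  refine tendsto_integral_of_dominated_convergence (fun ω => Real.exp |W ω|)
    (fun n => ((continuous_finsetSum _ fun k _ => (hWc.pow k).div_const _).mul hcc).aestronglyMeasurable)
    (integrable_of_continuous (Real.continuous_exp.comp hWc.abs)) (fun n => ae_of_all _ fun ω => ?_)
    (ae_of_all _ fun ω => ?_)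
  · rw [norm_mul]
    refine (mul_le_of_le_one_right (norm_nonneg _) (abs_cs_le _)).trans ?_
    refine (norm_sum_le _ _).trans ?_
    simp only [norm_div, norm_pow, Real.norm_eq_abs, Nat.abs_cast]
    exact Real.sum_le_exp_of_nonneg (abs_nonneg _) n
  · refine Tendsto.mul_const _ ?_
    have := (NormedSpace.expSeries_div_hasSum_exp (𝔸 := ℝ) (W ω)).tendsto_sum_nat
    rw [← Real.exp_eq_exp_ℝ] at this
    exact this

end

end Vale.Agent.P159
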