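import Vale.Agent.P159.Lattice

/-!
# P159: the finite size criterion and the threshold

If `phi r b < 1`, where `phi r b` sums the correlations of the centre with the boundary of the box
of radius `r` computed inside that box, then `0 < mass b`. Hence `mass bc = 0`.
-/

namespace Vale.Agent.P159

open Filter Finset
open scoped Classical Topology

noncomputable section

/-- The boundary of the box of radius `r`. -/
def sphere (r : ℕ) : Finset Site := (boxSet r).filter fun z => nv z = r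

lemma mem_sphere {r : ℕ} {z : Site} : z ∈ sphere r ↔ nv z = r := by
  simp [sphere, mem_boxSet]
  omega

lemma card_sphere_le (r : ℕ) : (sphere r).card ≤ 4 * (2 * r + 1) := by
  set I := Icc (-(r : ℤ)) r
  have hI : I.card = 2 * r + 1 := by simp [I, Int.card_Icc]; omega
  have hsub : sphere r ⊆ (I.image fun t => ((r : ℤ), t)) ∪ (I.image fun t => (-(r : ℤ), t)) ∪
      (I.image fun t => (t, (r : ℤ))) ∪ (I.image fun t => (t, -(r : ℤ))) := fun z hz => by
    rw [mem_sphere, nv] at hz
    simp only [mem_union, mem_image, I, mem_Icc, Prod.ext_iff]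
    rcases Int.natAbs_eq z.1 with h1 | h1 <;> rcases Int.natAbs_eq z.2 with h2 | h2 <;>
      rcases le_total z.2.natAbs z.1.natAbs with h | h
    all_goals first
      | exact Or.inl (Or.inl (Or.inl ⟨z.2, by omega, by omega, rfl⟩))
      | exact Or.inl (Or.inl (Or.inr ⟨z.2, by omega, by omega, rfl⟩))
      | exact Or.inl (Or.inr ⟨z.1, by omega, rfl, by omega⟩)
      | exact Or.inr ⟨z.1, by omega, rfl, by omega⟩
  refine (card_le_card hsub).trans ?_
  refine (card_union_le _ _).trans ?_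
  refine (add_le_add ((card_union_le _ _).trans (add_le_add (card_union_le _ _) le_rfl)) le_rfl).trans ?_
  have := fun f : ℤ → Site => (card_image_le (s := I) (f := f)).trans hI.le
  refine (add_le_add (add_le_add (add_le_add (this _) (this _)) (this _)) (this _)).trans ?_
  omega

/-- The criterion. -/
def phi (r : ℕ) (b : ℝ) : ℝ := ∑ u ∈ sphere r, corrBox r b 0 u

variable {b : ℝ}

lemma zero_mem_boxSet (R : ℕ) : (0 : Site) ∈ boxSet R := mem_boxSet.2 (by simp [nv])

/-- The exit inequality in a box. -/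
theorem corrBox_le_sum (hb : 0 ≤ b) {r R : ℕ} (hr : 1 ≤ r) (hrR : r ≤ R) {x : Site}
    (hx : r ≤ nv x) :
    corrBox R b 0 x ≤ ∑ u ∈ sphere r, corrBox r b 0 u * corrBox R b u x := by
  by_cases hxR : x ∈ boxSet R
  swap
  · rw [corrBox_zero fun h => hxR h.2]
    exact sum_nonneg fun u _ => mul_nonneg (corrBox_mem_Icc hb _ _ _).1 (corrBox_mem_Icc hb _ _ _).1
  set I : Set (Box R) := {z | nv (z : Site) < r}
  set W : Finset (Box R) := Finset.univ.filter fun z => nv (z : Site) = r with hW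
  have hle : ∀ z : Box R, z ∈ I ∪ (W : Set (Box R)) ↔ nv (z : Site) ≤ r := fun z => by
    simp [I, W]; omega
  let g : Box r → Box R := fun z => ⟨z, mem_boxSet.2 ((mem_boxSet.1 z.2).trans hrR)⟩
  have hg : Function.Injective g := fun z w e =>
    Subtype.ext (congrArg (fun v : Box R => (v : Site)) e)
  let τ : Bond r → Bond R := fun i =>
    ⟨(g i.1.1, i.1.2), mem_boxSet.2 ((mem_boxSet.1 i.2).trans hrR)⟩
  have hτ : Function.Injective τ := fun i j e => by
    have e' := congrArg Subtype.val e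
    simp only [τ, Prod.ext_iff] at e'
    exact Subtype.ext (Prod.ext (hg e'.1) e'.2)
  have hins : inside (ends R) (I ∪ ↑W) (fun _ : Bond R => b) =
      Function.extend τ (fun _ => b) 0 := by
    funext k
    by_cases hk : ∃ i, τ i = k
    · obtain ⟨i, rfl⟩ := hk
      rw [hτ.extend_apply, inside, cut, if_pos]
      exact ⟨(hle _).2 (mem_boxSet.1 i.1.1.2), (hle _).2 (mem_boxSet.1 i.2)⟩
    · rw [Function.extend_apply' _ _ _ hk, inside, cut, if_neg]
      · rfl
      · rintro ⟨h1, h2⟩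
        refine hk ⟨⟨(⟨(k.1.1 : Site), mem_boxSet.2 ((hle _).1 h1)⟩, k.1.2),
          mem_boxSet.2 ((hle _).1 h2)⟩, ?_⟩
        rfl
  have key := G_le_sum (ends R) (J := fun _ : Bond R => b) (fun _ => hb) I W
    (fun w hw => by simp only [I, W, mem_filter] at hw ⊢; simp only [Set.mem_ofPred_eq]; omega)
    (fun k hk => ?_) (a := ⟨0, zero_mem_boxSet R⟩) (x := ⟨x, hxR⟩)
    (by simp only [I, Set.mem_ofPred_eq]; simp [nv]; omega)
    (by simp only [I, Set.mem_ofPred_eq]; omega)
  · rw [corrBox_eq (zero_mem_boxSet R) hxR]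
    refine le_of_le_of_eq key ?_
    refine Finset.sum_bij (fun u _ => (u : Site)) (fun u hu => mem_sphere.2 (mem_filter.1 hu).2)
      (fun u _ v _ h => Subtype.ext h) (fun z hz => ⟨⟨z, mem_boxSet.2 ((mem_sphere.1 hz).le.trans hrR)⟩,
        mem_filter.2 ⟨mem_univ _, mem_sphere.1 hz⟩, rfl⟩) fun u hu => ?_
    have hur : (u : Site) ∈ boxSet r := mem_boxSet.2 (mem_filter.1 hu).2.le
    rw [corrBox_eq (zero_mem_boxSet r) hur, corrBox_eq u.2 hxR, hins]
    congr 1
    exact G_extend (ends r) (ends R) g hg τ hτ (fun i => Or.inl rfl) _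
      ⟨0, zero_mem_boxSet r⟩ ⟨u, hur⟩
  · have h1 := nv_step (k.1.1 : Site) k.1.2
    simp only [ends, hle, I, Set.mem_ofPred_eq] at hk ⊢
    omega

/-- The exit inequality in infinite volume. -/
theorem Cinf_le_sum (hb : 0 ≤ b) {r : ℕ} (hr : 1 ≤ r) {x : Site} (hx : r ≤ nv x) :
    Cinf b 0 x ≤ ∑ u ∈ sphere r, corrBox r b 0 u * Cinf b u x :=
  le_of_tendsto_of_tendsto (tendsto_corrBox hb 0 x)
    (tendsto_finsetSum _ fun u _ => (tendsto_corrBox hb u x).const_mul _)
    (eventually_atTop.2 ⟨r, fun _ hR => corrBox_le_sum hb hr hR hx⟩)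

lemma phi_nonneg (hb : 0 ≤ b) (r : ℕ) : 0 ≤ phi r b :=
  sum_nonneg fun _ _ => (corrBox_mem_Icc hb _ _ _).1

/-- Iteration of the exit inequality. -/
theorem Cinf_le_pow (hb : 0 ≤ b) {r : ℕ} (hr : 1 ≤ r) {θ : ℝ} (hθ : phi r b ≤ θ) :
    ∀ (k : ℕ) (x : Site), k * r ≤ nv x → Cinf b 0 x ≤ θ ^ k := by
  intro k
  induction k with
  | zero => intro x _; simpa using Cinf_le_one hb 0 x
  | succ k ih =>
    intro x hx
    rw [Nat.succ_mul] at hx
    have hθ0 : 0 ≤ θ := (phi_nonneg hb r).trans hθ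
    refine (Cinf_le_sum hb hr (by omega)).trans ?_
    calc ∑ u ∈ sphere r, corrBox r b 0 u * Cinf b u x ≤ ∑ u ∈ sphere r, corrBox r b 0 u * θ ^ k := by
          refine sum_le_sum fun u hu => mul_le_mul_of_nonneg_left ?_ (corrBox_mem_Icc hb _ _ _).1
          rw [Cinf_sub hb]
          refine ih _ ?_
          have h1 := nv_add_le (x - u) u
          rw [sub_add_cancel, mem_sphere.1 hu] at h1
          omega
      _ = phi r b * θ ^ k := by rw [phi, sum_mul]
      _ ≤ θ ^ (k + 1) := by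
          rw [pow_succ']
          exact mul_le_mul_of_nonneg_right hθ (pow_nonneg hθ0 k)

/-- A small criterion gives a lower bound on the mass. -/
theorem le_mass (hb : 0 < b) {r : ℕ} (hr : 1 ≤ r) {θ : ℝ} (_ : 0 < θ) (hθ : phi r b ≤ θ) :
    -Real.log θ / r ≤ mass b := by
  have hsub : Tendsto (fun k : ℕ => (k + 1) * r) atTop atTop := by
    refine tendsto_atTop_mono (fun k => ?_) tendsto_id
    show k ≤ (k + 1) * r
    nlinarith
  refine ge_of_tendsto' ((tendsto_mass hb).comp hsub) fun k => ?_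
  have hC : C b ((k + 1) * r) ≤ θ ^ (k + 1) := by
    rw [C_eq hb.le]
    exact Cinf_le_pow hb.le hr hθ (k + 1) _ (le_max_of_le_left (le_of_eq (Int.natAbs_natCast _).symm))
  have hl := Real.log_le_log (C_pos hb _) hC
  rw [Real.log_pow] at hl
  simp only [Function.comp_apply]
  have hr' : (0 : ℝ) < r := by exact_mod_cast hr
  rw [Nat.cast_mul, div_le_div_iff₀ hr' (by positivity)]
  push_cast at hl ⊢
  nlinarith

/-- The criterion is at least `exp (-mass r)`. -/
theorem exp_le_phi (hb : 0 < b) {r : ℕ} (hr : 1 ≤ r) : Real.exp (-mass b * r) ≤ phi r b := by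
  by_contra h
  rw [not_le] at h
  set θ := (phi r b + Real.exp (-mass b * r)) / 2
  have h0 : 0 < θ := by have := phi_nonneg hb.le r; positivity
  have h1 := le_mass hb hr h0 (by simp only [θ]; linarith)
  have h2 : Real.log θ < -mass b * r := by
    rw [Real.log_lt_iff_lt_exp h0]; simp only [θ]; linarith
  rw [div_le_iff₀ (by exact_mod_cast hr)] at h1
  linarith

theorem phi_le_exp (hb : 0 < b) (r : ℕ) :
    phi r b ≤ 4 * (2 * r + 1) * Real.exp (-mass b * r) := by
  calc phi r b ≤ ∑ _u ∈ sphere r, Real.exp (-mass b * r) := sum_le_sum fun u hu => by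
        have := (corrBox_le_Cinf hb.le r 0 u).trans (Cinf_le_exp hb u)
        rwa [mem_sphere.1 hu] at this
    _ ≤ _ := by
        rw [sum_const, nsmul_eq_mul]
        refine mul_le_mul_of_nonneg_right ?_ (Real.exp_nonneg _)
        exact_mod_cast card_sphere_le r

/-- Correlations in a box are Lipschitz in `b`. -/
lemma corrBox_sub_le {b' : ℝ} (hb : 0 ≤ b) (hbb : b ≤ b') (R : ℕ) (x y : Site) :
    corrBox R b' x y - corrBox R b x y ≤ (b' - b) * Fintype.card (Bond R) := by
  by_cases h : x ∈ boxSet R ∧ y ∈ boxSet R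
  · rw [corrBox_eq h.1 h.2, corrBox_eq h.1 h.2]
    refine (G_sub_le (ends R) (fun _ => hb) (fun _ => hbb) _ _).trans ?_
    calc ∑ i : Bond R, (b' - b) * _ ≤ ∑ _i : Bond R, (b' - b) * 1 := by
          refine sum_le_sum fun i _ => mul_le_mul_of_nonneg_left ?_ (sub_nonneg.2 hbb)
          rw [div_le_one two_pos]
          have hn := fun p q => G_nonneg (ends R) (J := fun _ : Bond R => b') (fun _ => hb.trans hbb) p q
          have hl := fun p q => G_le_one (ends R) (fun _ : Bond R => b') p q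
          linarith [mul_le_one₀ (hl ⟨x, h.1⟩ (ends R i).1) (hn _ _) (hl (ends R i).2 ⟨y, h.2⟩),
            mul_le_one₀ (hl ⟨x, h.1⟩ (ends R i).2) (hn _ _) (hl (ends R i).1 ⟨y, h.2⟩)]
      _ = _ := by rw [sum_const, card_univ, nsmul_eq_mul, mul_one, mul_comm]
  · rw [corrBox_zero h, corrBox_zero h, sub_zero]
    exact mul_nonneg (sub_nonneg.2 hbb) (Nat.cast_nonneg _)

lemma phi_sub_le {b' : ℝ} (hb : 0 ≤ b) (hbb : b ≤ b') (r : ℕ) :
    phi r b' - phi r b ≤ (b' - b) * ((sphere r).card * Fintype.card (Bond r)) := by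
  rw [phi, phi, ← sum_sub_distrib]
  refine (sum_le_card_nsmul _ _ _ fun u _ => corrBox_sub_le hb hbb r 0 u).trans (le_of_eq ?_)
  rw [nsmul_eq_mul]; ring

lemma phi_mono {b' : ℝ} (hb : 0 ≤ b) (hbb : b ≤ b') (r : ℕ) : phi r b ≤ phi r b' :=
  sum_le_sum fun _ _ => corrBox_mono hb hbb _ _ _

/-- If the criterion is small at `b0` then the mass is positive a little beyond. -/
theorem exists_mass_pos {b0 : ℝ} (hb0 : 0 ≤ b0) {r : ℕ} (hr : 1 ≤ r) (h : phi r b0 < 1 / 2) :
    ∃ ε > 0, ∀ b, 0 < b → b ≤ b0 + ε → 0 < mass b := by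
  set N : ℝ := (sphere r).card * Fintype.card (Bond r)
  have hN : 0 ≤ N := by positivity
  refine ⟨1 / (4 * (N + 1)), by positivity, fun b hb hle => ?_⟩
  have h1 : phi r b ≤ 3 / 4 := by
    have hε : 1 / (4 * (N + 1)) * N ≤ 1 / 4 := by
      rw [div_mul_eq_mul_div, div_le_iff₀ (by positivity)]
      linarith
    have := phi_sub_le hb0 (le_add_of_nonneg_right (a := b0)
      (by positivity : (0 : ℝ) ≤ 1 / (4 * (N + 1)))) r
    rw [add_sub_cancel_left] at this
    linarith [phi_mono hb.le hle r]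
  refine lt_of_lt_of_le ?_ (le_mass hb hr (by norm_num) h1)
  exact div_pos (neg_pos.2 (Real.log_neg (by norm_num) (by norm_num))) (by exact_mod_cast hr)

/-- The threshold is positive, the mass vanishes there and is positive below. -/
theorem bc_spec (hne : {b : ℝ | 0 < b ∧ mass b = 0}.Nonempty) :
    0 < bc ∧ mass bc = 0 ∧ ∀ b, 0 < b → b < bc → 0 < mass b := by
  set A := {b : ℝ | 0 < b ∧ mass b = 0}
  have hbdd : BddBelow A := ⟨0, fun x hx => hx.1.le⟩
  have hlow : ∀ b0, 0 ≤ b0 → (∀ r, 1 ≤ r → phi r b0 < 1 / 2 → b0 < bc) := by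
    intro b0 hb0 r hr h
    obtain ⟨ε, hε, hm⟩ := exists_mass_pos hb0 hr h
    have : b0 + ε ≤ bc := le_csInf hne fun x hx =>
      le_of_not_gt fun hlt => (hm x hx.1 hlt.le).ne' hx.2
    linarith
  have hpos : 0 < bc := by
    refine hlow 0 le_rfl 1 le_rfl ?_
    rw [phi, sum_eq_zero fun u hu => ?_]
    · norm_num
    · by_cases h : (0 : Site) ∈ boxSet 1 ∧ u ∈ boxSet 1
      · rw [corrBox_eq h.1 h.2, Gb, show (fun _ : Bond 1 => (0 : ℝ)) = 0 from rfl, G_free, if_neg]
        intro e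
        have := mem_sphere.1 hu
        have e' : (0 : Site) = u := congrArg Subtype.val e
        rw [← e'] at this
        simp [nv] at this
      · exact corrBox_zero h
  refine ⟨hpos, ?_, fun b hb hlt => ?_⟩
  · refine le_antisymm (le_of_not_gt fun hm => ?_) (mass_nonneg hpos)
    have hlim : Tendsto (fun r : ℕ => 4 * (2 * (r : ℝ) + 1) * Real.exp (-mass bc * r)) atTop
        (𝓝 0) := by
      have ha : |Real.exp (-mass bc)| < 1 := by
        rw [Real.abs_exp, Real.exp_lt_one_iff]; linarith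
      have h1 := tendsto_pow_atTop_nhds_zero_of_abs_lt_one ha
      have h2 := tendsto_self_mul_const_pow_of_abs_lt_one ha
      have h := (h2.const_mul 8).add (h1.const_mul 4)
      rw [mul_zero, mul_zero, add_zero] at h
      refine h.congr fun r => ?_
      rw [← Real.exp_nat_mul, mul_comm (r : ℝ) (-mass bc)]
      ring
    obtain ⟨r, hr1, hr⟩ := (((eventually_ge_atTop 1).and
      (hlim.eventually (gt_mem_nhds (by norm_num : (0 : ℝ) < 1 / 2))))).exists
    exact lt_irrefl _ (hlow bc hpos.le r hr1 ((phi_le_exp hpos r).trans_lt hr))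
  · exact lt_of_le_of_ne (mass_nonneg hb) fun e => (csInf_le hbdd ⟨hb, e.symm⟩).not_gt hlt

/-- The mass tends to zero from the left at `bc`. -/
theorem exists_mass_lt (hne : {b : ℝ | 0 < b ∧ mass b = 0}.Nonempty) {ε : ℝ} (hε : 0 < ε) :
    ∃ b0, 0 < b0 ∧ b0 < bc ∧ mass b0 < ε := by
  obtain ⟨hpos, hm, -⟩ := bc_spec hne
  have h := tendsto_mass hpos
  rw [hm] at h
  obtain ⟨n, hn1, hn⟩ := ((eventually_ge_atTop 1).and (h.eventually (gt_mem_nhds hε))).exists
  have hn0 : (0 : ℝ) < n := by exact_mod_cast hn1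
  rw [div_lt_iff₀ hn0] at hn
  have hlt : Real.exp (-(ε * n)) < Cinf bc 0 ((n : ℤ), 0) := by
    rw [← C_eq hpos.le, ← Real.lt_log_iff_exp_lt (C_pos hpos n)]
    linarith
  obtain ⟨R, hR⟩ := exists_lt_of_lt_ciSup hlt
  set c := corrBox R bc 0 ((n : ℤ), 0)
  set N : ℝ := (Fintype.card (Bond R) : ℝ)
  have hN : 0 ≤ N := Nat.cast_nonneg _
  set s := min (bc / 2) ((c - Real.exp (-(ε * n))) / (N + 1))
  have hs : 0 < s := lt_min (by linarith) (div_pos (sub_pos.2 hR) (by positivity))
  have hs2 : s ≤ bc / 2 := min_le_left _ _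
  refine ⟨bc - s, by linarith, by linarith, ?_⟩
  have hb : 0 < bc - s := by linarith
  have hd := corrBox_sub_le hb.le (sub_le_self bc hs.le) R 0 ((n : ℤ), 0)
  rw [sub_sub_cancel] at hd
  have hsN : s * N < c - Real.exp (-(ε * n)) := by
    have h1 : s * (N + 1) ≤ c - Real.exp (-(ε * n)) :=
      (le_div_iff₀ (by positivity)).1 (min_le_right _ _)
    nlinarith
  have hgt : Real.exp (-(ε * n)) < C (bc - s) n := by
    rw [C_eq hb.le]
    refine lt_of_lt_of_le ?_ (corrBox_le_Cinf hb.le R 0 _)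
    linarith
  refine (mass_le hb (by omega : n ≠ 0)).trans_lt ?_
  rw [div_lt_iff₀ hn0]
  have := Real.log_lt_log (Real.exp_pos _) hgt
  rw [Real.log_exp] at this
  linarith

end

end Vale.Agent.P159
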